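import Crest.Agent.X212.Cg28.Sy
import Crest.Agent.X212.Line51.Glue

/-!
# X212 / Cg28 (helper28): basic germs

`Bf`, `Bm`, `BM` : germs pulled back by `pr`; `BS` : basic systems; `Bsc` : basic connections.
-/

set_option autoImplicit false
set_option linter.unusedSectionVars false

open Set Filter Topology Function Module Matrix
open scoped ContDiff Manifold
open Crest.Agent.R208 Crest.Agent.R208.F Crest.Agent.X212.Dr59 Crest.Agent.X212.Int54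
open Crest.Agent.X212.Num57 Crest.Agent.X212.Pj41

noncomputable section

namespace Crest.Agent.X212.Cg28

variable {E : Type} [NormedAddCommGroup E] [NormedSpace ℝ E] [FiniteDimensional ℝ E]
  {H : Type} [TopologicalSpace H] {I : ModelWithCorners ℝ E H}
  {M : Type} [TopologicalSpace M] [ChartedSpace H M] [I.Boundaryless] [IsManifold I ∞ M]
  {E' : Type} [NormedAddCommGroup E'] [NormedSpace ℝ E'] [FiniteDimensional ℝ E']
  {H' : Type} [TopologicalSpace H'] {J : ModelWithCorners ℝ E' H'}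
  {N : Type} [TopologicalSpace N] [ChartedSpace H' N] [J.Boundaryless] [IsManifold J ∞ N]
  {F : Type} [NormedAddCommGroup F] [NormedSpace ℝ F] [FiniteDimensional ℝ F]
  {G : Type} [TopologicalSpace G] {K : ModelWithCorners ℝ F G}
  {Q : Type} [TopologicalSpace Q] [ChartedSpace G Q] [K.Boundaryless] [IsManifold K ∞ Q]
  {κ κ' : Type} [Fintype κ] [Fintype κ'] [DecidableEq κ] [DecidableEq κ'] {m n : Type}
  {ι o : Type} [Fintype ι] [Fintype o] {pr : M → Q} {p : M}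

variable (K) in
/-- basic functions -/
def Bf (pr : M → Q) (g : M → ℝ) (p : M) : Prop := ∃ γ : Q → ℝ, FSm K γ (pr p) ∧ g =ᶠ[𝓝 p] γ ∘ pr

variable (I K) in
/-- basic forms -/
def Bm (pr : M → Q) (a : M → Ext E) (p : M) : Prop :=
  ∃ b : Q → Ext F, SmAt K b (pr p) ∧ a =ᶠ[𝓝 p] pm I K pr b

variable (I K) in
/-- basic matrices -/
def BM (pr : M → Q) (X : Matrix m n (M → Ext E)) (p : M) : Prop := ∀ i j, Bm I K pr (X i j) p

variable (I K) in
/-- `pr` is smooth near `p` -/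
def Pv (pr : M → Q) (p : M) : Prop := ∀ᶠ y in 𝓝 p, ContMDiffAt I K ∞ pr y

section fun_

variable {g g' : M → ℝ}

theorem Bf.congr (h : Bf K pr g p) (e : g' =ᶠ[𝓝 p] g) : Bf K pr g' p :=
  let ⟨γ, h1, h2⟩ := h
  ⟨γ, h1, e.trans h2⟩

theorem bf_of {γ : Q → ℝ} (h : FSm K γ (pr p)) : Bf K pr (fun y => γ (pr y)) p := ⟨γ, h, .rfl⟩

theorem bf_const (c : ℝ) : Bf K pr (fun _ => c) p := ⟨fun _ => c, contMDiffAt_const, .rfl⟩

theorem Bf.comp₂ (h : Bf K pr g p) (h' : Bf K pr g' p) {Φ : ℝ × ℝ → ℝ}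
    (hΦ : ContDiffAt ℝ ∞ Φ (g p, g' p)) : Bf K pr (fun y => Φ (g y, g' y)) p := by
  obtain ⟨γ, h1, h2⟩ := h
  obtain ⟨γ', k1, k2⟩ := h'
  rw [h2.self_of_nhds, k2.self_of_nhds] at hΦ
  refine ⟨fun q => Φ (γ q, γ' q),
    ContDiffAt.comp_contMDiffAt (f := fun q => (γ q, γ' q)) hΦ (h1.prodMk_space k1), ?_⟩
  filter_upwards [h2, k2] with y a b using by rw [a, b]; rfl

theorem Bf.comp (h : Bf K pr g p) {Φ : ℝ → ℝ} (hΦ : ContDiffAt ℝ ∞ Φ (g p)) :
    Bf K pr (fun y => Φ (g y)) p :=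
  h.comp₂ h (Φ := fun z => Φ z.1) (ContDiffAt.comp (g p, g p) hΦ contDiffAt_fst)

theorem Bf.add (h : Bf K pr g p) (h' : Bf K pr g' p) : Bf K pr (fun y => g y + g' y) p :=
  h.comp₂ h' (Φ := fun z => z.1 + z.2) (by fun_prop)

theorem Bf.sub (h : Bf K pr g p) (h' : Bf K pr g' p) : Bf K pr (fun y => g y - g' y) p :=
  h.comp₂ h' (Φ := fun z => z.1 - z.2) (by fun_prop)

theorem Bf.mul (h : Bf K pr g p) (h' : Bf K pr g' p) : Bf K pr (fun y => g y * g' y) p :=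
  h.comp₂ h' (Φ := fun z => z.1 * z.2) (by fun_prop)

theorem Bf.neg (h : Bf K pr g p) : Bf K pr (fun y => -g y) p := h.comp (Φ := fun t => -t) (by fun_prop)

theorem Bf.inv (h : Bf K pr g p) (h0 : g p ≠ 0) : Bf K pr (fun y => (g y)⁻¹) p :=
  h.comp (contDiffAt_inv ℝ h0)

theorem Bf.div (h : Bf K pr g p) (h' : Bf K pr g' p) (h0 : g' p ≠ 0) : Bf K pr (fun y => g y / g' y) p := by
  simpa only [div_eq_mul_inv] using h.mul (h'.inv h0)

theorem bf_sum {α : Type*} {s : Finset α} {f : α → M → ℝ} (h : ∀ i ∈ s, Bf K pr (f i) p) :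
    Bf K pr (fun y => ∑ i ∈ s, f i y) p := by
  rw [← Finset.sum_fn]
  exact Finset.sum_induction f (Bf K pr · p) (fun _ _ => Bf.add) (bf_const 0) h

variable {a b : M → Ext E}

theorem Bm.congr (h : Bm I K pr a p) (e : b =ᶠ[𝓝 p] a) : Bm I K pr b p :=
  let ⟨γ, h1, h2⟩ := h
  ⟨γ, h1, e.trans h2⟩

theorem Bf.fn (h : Bf K pr g p) : Bm I K pr (fn E g) p :=
  let ⟨γ, h1, h2⟩ := h
  ⟨Dr59.fn F γ, cAt_fn le_rfl h1, by
    rw [pm_fn]
    exact h2.mono fun y hy => congrArg (algebraMap ℝ _) hy⟩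

theorem bm_zero : Bm I K pr (0 : M → Ext E) p := ⟨0, cAt_zero, by rw [pm_zero]⟩

theorem bm_one : Bm I K pr (1 : M → Ext E) p :=
  ⟨1, cAt_one, .of_forall fun _ => (map_one _).symm⟩

theorem Bm.add (h : Bm I K pr a p) (h' : Bm I K pr b p) : Bm I K pr (a + b) p :=
  let ⟨γ, h1, h2⟩ := h
  let ⟨γ', k1, k2⟩ := h'
  ⟨γ + γ', h1.add k1, pm_add (J := I) (I := K) pr γ γ' ▸ h2.add k2⟩

theorem Bm.sub (h : Bm I K pr a p) (h' : Bm I K pr b p) : Bm I K pr (a - b) p :=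
  let ⟨γ, h1, h2⟩ := h
  let ⟨γ', k1, k2⟩ := h'
  ⟨γ - γ', h1.sub k1, pm_sub (J := I) (I := K) pr γ γ' ▸ h2.sub k2⟩

theorem Bm.neg (h : Bm I K pr a p) : Bm I K pr (-a) p := by simpa using bm_zero.sub h

theorem Bm.mul (h : Bm I K pr a p) (h' : Bm I K pr b p) : Bm I K pr (a * b) p :=
  let ⟨γ, h1, h2⟩ := h
  let ⟨γ', k1, k2⟩ := h'
  ⟨γ * γ', h1.mul k1, pm_mul (J := I) (I := K) pr γ γ' ▸ h2.mul k2⟩

theorem Bm.fsmul (hg : Bf K pr g p) (h : Bm I K pr a p) : Bm I K pr (g • a) p :=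
  fn_mul g a ▸ hg.fn.mul h

theorem bm_sum {α : Type*} {s : Finset α} {f : α → M → Ext E} (h : ∀ i ∈ s, Bm I K pr (f i) p) :
    Bm I K pr (∑ i ∈ s, f i) p := Finset.sum_induction f (Bm I K pr · p) (fun _ _ => Bm.add) bm_zero h

theorem Pv.cont (hp : Pv I K pr p) : ContinuousAt pr p := hp.self_of_nhds.continuousAt

theorem Bm.d (hp : Pv I K pr p) (h : Bm I K pr a p) : Bm I K pr (dM I a) p := by
  obtain ⟨γ, h1, h2⟩ := h
  refine ⟨dM K γ, h1.dM, (dM_congr_nhds h2).trans ?_⟩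
  filter_upwards [hp, hp.cont.eventually ((h1.of_le (m := 1) (by simp)).eventually (by norm_cast))]
    with y k1 k2 using dM_pm one_ne_zero k1 k2

theorem Bf.df (hp : Pv I K pr p) (h : Bf K pr g p) : Bm I K pr (df I g) p := by
  obtain ⟨γ, h1, h2⟩ := h
  refine ⟨Dr59.df K γ, smAt_df h1, ?_⟩
  filter_upwards [hp, h2.eventually_nhds, hp.cont.eventually
    ((contMDiffAt_iff_contMDiffAt_nhds (n := 1) (by simp)).1 (h1.of_le (by simp)))] with y k1 k2 k3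
  rw [pm_df (k1.mdifferentiableAt ne0) (k3.mdifferentiableAt one_ne_zero), Dr59.df, Dr59.df, mf_congr k2]

theorem bm_ang (hp : Pv I K pr p) {γ : Q → Circle} (h : ∀ q, Line51.CSm K γ q) :
    Bm I K pr (Line51.ang I (γ ∘ pr)) p :=
  ⟨Line51.ang K γ, Line51.smAt_ang (h _),
    hp.mono fun _ k => (Line51.pm_ang (h _) (k.mdifferentiableAt ne0)).symm⟩

theorem Bm.tp (hd : finrank ℝ F < finrank ℝ E) (h : Bm I K pr a p) : tp E (a p) = 0 :=
  let ⟨γ, _, h2⟩ := h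
  (congrArg _ h2.self_of_nhds).trans (tp_pm_lt hd pr γ p)

end fun_

section mat

variable {X Y : Matrix m n (M → Ext E)}

theorem BM.add (h : BM I K pr X p) (h' : BM I K pr Y p) : BM I K pr (X + Y) p :=
  fun i j => (h i j).add (h' i j)

theorem BM.sub (h : BM I K pr X p) (h' : BM I K pr Y p) : BM I K pr (X - Y) p :=
  fun i j => (h i j).sub (h' i j)

theorem BM.mul {A : Matrix m κ (M → Ext E)} {B : Matrix κ n (M → Ext E)} (h : BM I K pr A p)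
    (h' : BM I K pr B p) : BM I K pr (A * B) p := fun i j => by
  rw [Matrix.mul_apply]
  exact bm_sum fun k _ => (h i k).mul (h' k j)

theorem BM.md (hp : Pv I K pr p) (h : BM I K pr X p) : BM I K pr (md I X) p := fun i j => (h i j).d hp

theorem bM_one : BM I K pr (1 : Matrix κ κ (M → Ext E)) p := fun i j => by
  rw [Matrix.one_apply]
  split_ifs
  exacts [bm_one, bm_zero]

theorem BM.tpt (hp : Pv I K pr p) {C : Matrix κ κ (M → Ext E)} {u : Matrix κ' κ (M → Ext E)}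
    {v : Matrix κ κ' (M → Ext E)} (hC : BM I K pr C p) (hu : BM I K pr u p) (hv : BM I K pr v p) :
    BM I K pr (tpt I C u v) p :=
  ((hu.mul (hv.md hp)).add ((hu.mul hC).mul hv)).sub ((bM_one.sub (hu.mul hv)).mul ((hu.mul hv).md hp))

theorem BM.c2 (hp : Pv I K pr p) {C T : Matrix κ κ (M → Ext E)} (hC : BM I K pr C p)
    (hT : BM I K pr T p) : Bm I K pr (c2 I C T) p :=
  have h : BM I K pr (cu I C) p := (hC.md hp).add (hC.mul hC)
  bm_sum fun k _ => (hT.mul (h.mul h)) k k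

end mat

variable (K) in
/-- basic systems, relative to the family `σ` of one-forms -/
structure BS (pr : M → Q) (σ : o → M → Ext E) (S : Sy E M κ) (p : M) : Prop where
  th : ∃ W : κ → o → M → ℝ, (∀ a k, Bf K pr (W a k) p) ∧
    ∀ᶠ y in 𝓝 p, ∀ a v, e1 (S.th a y) v = ∑ k, W a k y * e1 (σ k y) v
  e : ∀ k a, Bf K pr (fun y => e1 (σ k y) (S.e a y)) p

/-- index set of frames -/
abbrev F4 : Type := Fin 2 × Fin 2

variable (I K) in
/-- basic connections -/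
def Bsc (pr : M → Q) (σ : o → M → Ext E) (S : Sy E M κ) (C : Matrix κ κ (M → Ext E)) (p : M) : Prop :=
  ∃ (S' : Sy E M F4) (G : Matrix F4 F4 (M → Ext E)), BS K pr σ S' p ∧ BM I K pr G p ∧
    Lc p fun U => Eqv I U S C S' G

variable {σ : o → M → Ext E} {S : Sy E M κ} {S' : Sy E M κ'} {C : Matrix κ κ (M → Ext E)}
  {C' : Matrix κ' κ' (M → Ext E)}

theorem BS.tr (h' : BS K pr σ S' p) (h : BS K pr σ S p) : BM I K pr (tr S' S) p := fun b a => by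
  obtain ⟨W, h1, h2⟩ := h'.th
  exact ((bf_sum (s := Finset.univ) fun k _ => (h1 b k).mul (h.e k a)).congr
    (h2.mono fun y hy => hy b _)).fn

theorem Bsc.tp (hd : finrank ℝ F < finrank ℝ E) (hp : Pv I K pr p) (h : Bsc I K pr σ S C p) :
    tp E (c2 I C (tr S S) p) = 0 := by
  obtain ⟨S', G, h1, h2, h3⟩ := h
  obtain ⟨U, k1, k2, k3⟩ := h3.ex
  rw [← k3.c2 k1 k2]
  exact (h2.c2 hp (h1.tr h1)).tp hd

theorem Bsc.of_eqv (h : Bsc I K pr σ S' C' p) (e : Lc p fun U => Eqv I U S C S' C') :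
    Bsc I K pr σ S C p :=
  let ⟨R, G, h1, h2, h3⟩ := h
  ⟨R, G, h1, h2, (e.and h3).mono fun _ hU k => k.1.trans hU k.2⟩

theorem Bsc.tn (h : Bsc I K pr σ S C p) : Lc p fun U => Tn I U S C :=
  let ⟨_, _, _, _, h3⟩ := h
  h3.mono fun _ hU k => k.left hU

theorem Bsc.to (hp : Pv I K pr p) (h : Bsc I K pr σ S C p) (h1 : BS K pr σ S' p)
    (h2 : Lc p fun U => S'.On I U) : ∃ G, BM I K pr G p ∧ Lc p fun U => Eqv I U S C S' G :=
  let ⟨R, G, k1, k2, k3⟩ := h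
  ⟨tc I R G S', k2.tpt hp (h1.tr k1) (k1.tr h1),
    (k3.and h2).mono fun _ hU k => k.1.trans hU ((k.1.right hU).tc hU k.2)⟩

theorem bsc_mix (hp : Pv I K pr p) {ψ : ι → M → ℝ} {C : ι → Matrix κ κ (M → Ext E)}
    (hs : ∀ᶠ y in 𝓝 p, ∑ j, ψ j y = 1)
    (h : ∀ j, ψ j =ᶠ[𝓝 p] 0 ∨
      ((∀ᶠ y in 𝓝 p, FSm I (ψ j) y) ∧ Bf K pr (ψ j) p ∧ Bsc I K pr σ S (C j) p)) :
    Bsc I K pr σ S (∑ j, ψ j • C j) p := by
  obtain ⟨j₀, -, -, R, G₀, h1, -, h3⟩ : ∃ j, (∀ᶠ y in 𝓝 p, FSm I (ψ j) y) ∧ Bf K pr (ψ j) p ∧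
      Bsc I K pr σ S (C j) p := by
    by_contra k
    have := hs.self_of_nhds
    rw [Finset.sum_eq_zero fun j _ => ((h j).resolve_right fun e => k ⟨j, e⟩).self_of_nhds] at this
    exact zero_ne_one this
  have k : ∀ j, ∃ G, BM I K pr (ψ j • G) p ∧ Lc p fun U => (∀ x ∈ U, ψ j x = 0) ∨
      ((∀ x ∈ U, FSm I (ψ j) x) ∧ Eqv I U S (C j) R G) := fun j => by
    rcases h j with e | ⟨e1, e2, e3⟩
    · exact ⟨0, fun a b => by simpa using bm_zero, (Lc.of_ev e).mono fun _ _ => Or.inl⟩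
    · obtain ⟨G, k1, k2⟩ := e3.to hp h1 (h3.mono fun _ _ k => k.s')
      exact ⟨G, fun a b => Bm.fsmul e2 (k1 a b), ((Lc.of_ev e1).and k2).mono fun _ _ => Or.inr⟩
  choose G k1 k2 using k
  refine ⟨R, ∑ j, ψ j • G j, h1, fun a b => ?_, ((h3.and (.of_ev hs)).and (.fin k2)).mono
    fun U hU k => eqv_mix hU k.1.1.s k.1.1.s' k.1.2 k.2⟩
  rw [mix_apply]
  exact bm_sum fun j _ => k1 j a b

section pb

variable {f : N → M} {y : N} {pr' : N → Q} {φ : Q → Q} {σ' : o → N → Ext E'}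

theorem Bf.pb (hf : ContinuousAt f y) (hφ : ContMDiff K K ∞ φ) (e : pr ∘ f =ᶠ[𝓝 y] φ ∘ pr')
    {g : M → ℝ} (h : Bf K pr g (f y)) : Bf K pr' (fun z => g (f z)) y := by
  obtain ⟨γ, h1, h2⟩ := h
  refine ⟨γ ∘ φ, ContMDiffAt.comp _ (by rwa [show φ (pr' y) = pr (f y) from e.self_of_nhds.symm]) (hφ _), ?_⟩
  filter_upwards [hf.eventually h2, e] with z k1 k2 using k1.trans (congrArg γ k2)

theorem Bm.pb (hf : IsLocalDiffeomorphAt J I ∞ f y) (hp : Pv I K pr (f y)) (hp' : Pv J K pr' y)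
    (hφ : ContMDiff K K ∞ φ) (e : pr ∘ f =ᶠ[𝓝 y] φ ∘ pr') {a : M → Ext E} (h : Bm I K pr a (f y)) :
    Bm J K pr' (pm J I f a) y := by
  obtain ⟨γ, h1, h2⟩ := h
  have c := hf.contMDiffAt.continuousAt
  refine ⟨pm K K φ γ, SmAt.pm (hφ _) (by rwa [show φ (pr' y) = pr (f y) from e.self_of_nhds.symm]), ?_⟩
  filter_upwards [c.eventually h2, e.eventually_nhds, c.eventually hp, hp', Orx52.eventually_ld hf]
    with z k1 k2 k3 k4 k5
  rw [pm_congr_right k1, pm_comp (k3.mdifferentiableAt ne0) (k5.mdifferentiableAt ne0), pm_congr k2 rfl,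
    pm_comp ((hφ _).mdifferentiableAt ne0) (k4.mdifferentiableAt ne0)]

theorem Bsc.pb (hf : IsLocalDiffeomorphAt J I ∞ f y) (hp : Pv I K pr (f y)) (hp' : Pv J K pr' y)
    (hφ : ContMDiff K K ∞ φ) (e : pr ∘ f =ᶠ[𝓝 y] φ ∘ pr') {l : o → ℝ} (hl : ∀ k, l k ≠ 0)
    (hσ : ∀ᶠ z in 𝓝 y, ∀ k, pm J I f (σ k) z = l k • σ' k z) (h : Bsc I K pr σ S C (f y)) :
    Bsc J K pr' σ' (S.pb J I f) (C.map (pa I J f)) y := by
  obtain ⟨R, G, ⟨⟨W, h0, h1⟩, h2⟩, h3, h4⟩ := h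
  have c := hf.contMDiffAt.continuousAt
  refine ⟨R.pb J I f, G.map (pa I J f), ⟨⟨fun a k z => W a k (f z) * l k,
    fun a k => ((h0 a k).pb c hφ e).mul (bf_const _), ?_⟩, fun k a =>
    ((bf_const (l k)⁻¹).mul ((h2 k a).pb c hφ e)).congr ?_⟩,
    fun i j => (h3 i j).pb hf hp hp' hφ e, h4.eqv_pb hf⟩
  · filter_upwards [c.eventually h1, hσ] with z k1 k2 a v
    refine (e1_pm _ _ _ _).trans ((k1 a _).trans (Finset.sum_congr rfl fun k _ => ?_))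
    rw [← e1_pm, k2, e1_smul, mul_assoc]
  · filter_upwards [hσ, Orx52.eventually_ld hf] with z k1 k2
    rw [← e1_pb k2, k1, e1_smul, inv_mul_cancel_left₀ (hl k)]

end pb

end Crest.Agent.X212.Cg28
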