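import Crest.Agent.X212.Orx52.Rod
import Crest.Agent.X212.Rod53.Fill
import Crest.Agent.X212.Rod53.Word
import Crest.Agent.X212.Line51.Chi
import Crest.Agent.X212.Num57.Qf
import Crest.Agent.X212.Num57.Cnn
import Crest.Agent.X212.Dr59.Lat
import Crest.Agent.X212.Hz56.Rod
import Crest.Agent.X212.Nrm38.Red
import Crest.Agent.X212.Bor5.Defs

/-!
# X212 / Cg28 (helper28): the Casson-Gordon input, definitions and leaves

`Bs` : a tube with an angle function; `Ch L` : a chain of slopes; `Jc` : a junction of the two ends;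
`Cy` : the closed manifold; `Br`, `Cv` : the cyclic cover in dimensions three and four.
-/

set_option autoImplicit false
set_option linter.unusedSectionVars false

open Set Filter Topology Function Module
open scoped ContDiff Manifold
open Crest.Agent.R208 Crest.Agent.R208.F Crest.Agent.X212.Dr59 Crest.Agent.X212.Int54
open Crest.Agent.X212.Rod53 Crest.Agent.X212.Line51 Crest.Agent.X212.Orx52 Crest.Agent.X212.Cyl58
open Crest.Agent.X212.Num57 (bp bm)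

noncomputable section

namespace Crest.Agent.X212.Cg28

/-- an oriented closed three-manifold with a tube and an angle function on the exterior -/
structure Bs : Type 1 where
  N : Type
  [tp : TopologicalSpace N]
  [cs : ChartedSpace E3 N]
  [mf : IsManifold (𝓡 3) ∞ N]
  [t2 : T2Space N]
  [cp : CompactSpace N]
  [sc : SecondCountableTopology N]
  [cn : ConnectedSpace N]
  T : Tb (𝓡 3) N
  θ : N → Circle
  sm : ∀ q ∈ T.Ex, CSm (𝓡 3) θ q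
  θτ : ∀ w : Circle × ℂ, w.2 ≠ 0 → θ (T.τ w) = Glue52.dir w.2
  o : N → Ext E3
  ori : OriOn (𝓡 3) T.Ex o
  pos : Pos Rod53.IT (𝓡 3) T.τ {z | z.2 ≠ 0} oT o

attribute [instance] Bs.tp Bs.cs Bs.mf Bs.t2 Bs.cp Bs.sc Bs.cn

/-- a chain of slopes: vertices at the times `2, …, n + 1` -/
structure Ch (L : ℕ) where
  a : ℤ → Z2
  n : ℕ
  one : 1 ≤ n
  le : n + 2 ≤ L
  lo : ∀ i, i ≤ 1 → a i = a 1
  hi : ∀ i, (n : ℤ) + 1 ≤ i → a i = a (n + 1)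
  det : ∀ i, 2 ≤ i → i ≤ (n : ℤ) + 1 → dt (a (i - 1)) (a i) = -1
  pos : ∀ i, 0 < (a i).2

namespace Ch

variable {L : ℕ} (c : Ch L)

/-- the rod structure -/
def v : ℝ → Z2 := wd c.a

theorem uni {i : ℤ} (h : 2 ≤ i) (h' : i ≤ (c.n : ℤ) + 1) : Rod53.Uni (c.a (i - 1)) (c.a i) :=
  Or.inr (c.det i h h')

theorem isWd : IsWd c.a := by
  have h1 : (1 : ℤ) ≤ c.n := by exact_mod_cast c.one
  refine ⟨fun i => ?_, fun i => ?_⟩
  · rcases le_or_gt i 1 with h | h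
    · exact ⟨_, c.lo i h ▸ c.uni (i := 2) le_rfl (by omega)⟩
    · rcases le_or_gt i (c.n + 1) with k | k
      · exact ⟨_, (c.uni h k).symm⟩
      · exact ⟨_, c.hi i k.le ▸ (c.uni (by omega) le_rfl).symm⟩
  · rcases le_or_gt i 1 with h | h
    · exact Or.inl (Or.inl ((c.lo _ (by omega)).trans (c.lo i h).symm))
    · rcases le_or_gt i (c.n + 1) with k | k
      · exact Or.inr (c.uni h k)
      · exact Or.inl (Or.inl ((c.hi _ (by omega)).trans (c.hi i k.le).symm))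

theorem loc : Loc c.v := c.isWd.loc

theorem lo_Jr : Iio (2 : ℝ) ⊆ Jr c.v (c.a 1) := by
  have := Iio_subset_Jr (a := c.a) (j := 1) fun k hk => Or.inl (c.lo k hk)
  rwa [Int.cast_one, one_add_one_eq_two] at this

theorem a_L : c.a L = c.a (c.n + 1) := c.hi _ (by have := c.le; omega)

theorem hi_Jr : Ioi ((c.n : ℝ) + 1) ⊆ Jr c.v (c.a L) := by
  have := Ioi_subset_Jr (a := c.a) (i := c.n + 1) fun k hk => Or.inl ((c.hi k hk).trans c.a_L.symm)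
  rwa [Int.cast_add, Int.cast_natCast, Int.cast_one] at this

/-- the meridional coordinate -/
def t (i : ℤ) : ℝ := (c.a i).2

/-- the defect of the chain -/
def del : ℝ := ∑ j ∈ Finset.range c.n, (3 - c.t (j + 2) / c.t (j + 1) - c.t (j + 1) / c.t (j + 2))

end Ch

namespace Bs

variable (B : Bs) {L : ℕ} (c : Ch L)

/-- the four-manifold -/
abbrev X : Type := Rod53.X B.T c.v

instance : SecondCountableTopology (B.X c) := B.T.secondCountable c.loc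
instance : MeasurableSpace (B.X c) := borel _
instance : BorelSpace (B.X c) := ⟨rfl⟩

/-- its orientation -/
def O : B.X c → Ext E4 := oX c.loc B.ori

theorem ox : OX B.T c.v B.o (B.O c) := oX_spec _ _

/-- time -/
abbrev tm : B.X c → ℝ := B.T.time c.v

/-- the complement of the branch locus -/
def A : Set (B.X c) := {x | B.T.eta c.v x < 1 ∨ B.tm c x < 2 ∨ (L : ℝ) - 1 < B.tm c x}

theorem isOpen_A : IsOpen (B.A c) :=
  (isOpen_lt B.T.continuous_eta continuous_const).union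
    ((isOpen_lt B.T.continuous_time continuous_const).union
      (isOpen_lt continuous_const B.T.continuous_time))

end Bs

section gen

variable {M : Type} [TopologicalSpace M] [ChartedSpace E4 M]

/-- the upper end is identified with the lower end -/
structure Jc (τ : M → ℝ) (O : M → Ext E4) (L : ℝ) (g : PartialDiffeomorph (𝓡 4) (𝓡 4) M M ∞) :
    Prop where
  src : g.source = τ ⁻¹' Ioo L (L + 1)
  tgt : g.target = τ ⁻¹' Ioo 0 1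
  tm : ∀ x ∈ g.source, τ (g x) = τ x - L
  pos : Pos (𝓡 4) (𝓡 4) g g.source O O

/-- a closed oriented four-manifold -/
structure C4 : Type 1 where
  Z : Type
  [tp : TopologicalSpace Z]
  [cs : ChartedSpace E4 Z]
  [mf : IsManifold (𝓡 4) ∞ Z]
  [t2 : T2Space Z]
  [cp : CompactSpace Z]
  [sc : SecondCountableTopology Z]
  o : Z → Ext E4
  ori : Ori (𝓡 4) o

attribute [instance] C4.tp C4.cs C4.mf C4.t2 C4.cp C4.sc

instance (Z : C4) : MeasurableSpace Z.Z := borel _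
instance (Z : C4) : BorelSpace Z.Z := ⟨rfl⟩

/-- the signature -/
def C4.sg (Z : C4) : ℤ := (bp Z.ori : ℤ) - bm Z.ori

/-- `Z` is the part of `M` over `(0, L + 1)` with the ends identified by `g` -/
structure Cy (τ : M → ℝ) (O : M → Ext E4) (L : ℝ) (g : PartialDiffeomorph (𝓡 4) (𝓡 4) M M ∞)
    (Z : C4) (i : M → Z.Z) : Prop where
  ld : ∀ x, τ x ∈ Ioo 0 (L + 1) → IsLocalDiffeomorphAt (𝓡 4) (𝓡 4) ∞ i x
  pos : Pos (𝓡 4) (𝓡 4) i (τ ⁻¹' Ioo 0 (L + 1)) O Z.o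
  inj : ∀ x y, τ x ∈ Ioo 0 (L + 1) → τ y ∈ Ioo 0 (L + 1) → τ x ≤ τ y → i x = i y →
    x = y ∨ (y ∈ g.source ∧ g y = x)
  glue : ∀ y ∈ g.source, i (g y) = i y
  surj : ∀ z, ∃ x, τ x ∈ Ioo 0 (L + 1) ∧ i x = z

end gen

/-- the `p`-fold cyclic cover, branched along the core -/
structure Br (B' B : Bs) (p : ℕ) (π : B'.N → B.N) : Prop where
  ld : ∀ q ∈ B'.T.Ex, IsLocalDiffeomorphAt (𝓡 3) (𝓡 3) ∞ π q
  tube : ∀ w, π (B'.T.τ w) = B.T.τ (gl (0, p) (1, 0) w)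
  far : ∀ q, q ∉ range B'.T.τ → π q ∉ range B.T.τ
  ang : ∀ q ∈ B'.T.Ex, B.θ (π q) = B'.θ q ^ p
  fib : ∀ x ∈ B.T.Ex, ∀ u : Circle, u ^ p = B.θ x → ∃! q, q ∈ B'.T.Ex ∧ π q = x ∧ B'.θ q = u
  pos : Pos (𝓡 3) (𝓡 3) π B'.T.Ex B'.o B.o

/-- the cover in dimension four, with its deck transformations `dk μ`, `μ ^ p = 1` -/
structure Cv {B' B : Bs} {L : ℕ} (c' c : Ch L) (p : ℕ) (π : B'.N → B.N) (P : B'.X c' → B.X c)
    (dk : Circle → B'.X c' → B'.X c') : Prop where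
  ld : ∀ x ∈ B'.A c', IsLocalDiffeomorphAt (𝓡 4) (𝓡 4) ∞ P x
  tm : ∀ x ∈ B'.A c', B.tm c (P x) = B'.tm c' x
  hf : ∀ x ∈ B'.A c', ∀ (Z : Type) (k : ℝ → Z) (d : Z), B.T.hf c.v k d (P x) = B'.T.hf c'.v k d x
  ext : ∀ q ∈ B'.T.Ex, ∀ s : ℝ, P (B'.T.ext c'.v (q, s)) = B.T.ext c.v (π q, s)
  pos : Pos (𝓡 4) (𝓡 4) P (B'.A c') (B'.O c') (B.O c)
  card : ∀ y ∈ B.A c, (B'.A c' ∩ P ⁻¹' {y}).ncard = p
  dk_cont : ∀ μ, μ ^ p = 1 → ContinuousOn (dk μ) (B'.A c')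
  dk_mem : ∀ μ, μ ^ p = 1 → ∀ x ∈ B'.A c', dk μ x ∈ B'.A c' ∧ P (dk μ x) = P x
  dk_mul : ∀ μ ν, μ ^ p = 1 → ν ^ p = 1 → ∀ x ∈ B'.A c', dk (μ * ν) x = dk μ (dk ν x)
  dk_fib : ∀ x ∈ B'.A c', ∀ y ∈ B'.A c', P x = P y → ∃! μ, μ ^ p = 1 ∧ dk μ x = y
  dk_ext : ∀ μ, μ ^ p = 1 → ∀ q ∈ B'.T.Ex, ∀ s : ℝ, ∃ q' ∈ B'.T.Ex,
    dk μ (B'.T.ext c'.v (q, s)) = B'.T.ext c'.v (q', s) ∧ π q' = π q ∧ B'.θ q' = μ * B'.θ q

/-- the kernel of the restriction `H²(U) → H²(W)` has dimension at most `n` -/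
def KB {M : Type} [TopologicalSpace M] [ChartedSpace E4 M] [IsManifold (𝓡 4) ∞ M] {U W : Set M}
    (h : W ⊆ U) (n : ℕ) : Prop := Module.rank ℝ (LinearMap.ker (res (I := 𝓡 4) (k := 2) h)) ≤ n

/-! ### the leaves -/

/-- BRC : the branched cover exists -/
def BrStmt : Prop := ∀ (B : Bs) (p : ℕ), 0 < p → ∃ B' π, Br B' B p π

/-- COV : the cover of the four-manifold -/
def CvStmt : Prop := ∀ (B' B : Bs) (p : ℕ) (π : B'.N → B.N), 0 < p → Br B' B p π →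
  ∀ (L : ℕ) (c' c : Ch L) (q₀ q₁ : ℤ), c.a 1 = (q₀, (p : ℤ)) → c.a L = (q₁, (p : ℤ)) → c'.a 1 = (q₀, 1) →
    c'.a L = (q₁, 1) → ∃ P dk, Cv c' c p π P dk

/-- LIFT : the junction lifts if the base has no abelian covers -/
def LiftStmt : Prop := ∀ (B' B : Bs) (p : ℕ) (π : B'.N → B.N), 0 < p → Br B' B p π →
  (∀ (G : Type) [Group G], Hz56.H1 G (univ : Set B.N)) →
  ∀ (L : ℕ) (c' c : Ch L) P dk, Cv c' c p π P dk → ∀ g, Jc (B.tm c) (B.O c) L g →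
    ∃ g', Jc (B'.tm c') (B'.O c') L g' ∧ ∀ x ∈ g'.source, P (g' x) = g (P x)

/-- JC : the base of a knot datum and the junction of a cosmetic pair -/
def JcStmt : Prop := ∀ k : Ext52.KD, ∃ B : Bs, (∀ (G : Type) [Group G], Hz56.H1 G (univ : Set B.N)) ∧
  ∀ (p q₀ q₁ : ℤ) (L : ℕ) (c : Ch L), c.a 1 = (q₀, p) → c.a L = (q₁, p) → Nrm38.Cos k p q₁ q₀ →
    ∃ g, Jc (B.tm c) (B.O c) L g

/-- CY : closing up -/
def CyStmt : Prop := ∀ (M : Type) [TopologicalSpace M] [ChartedSpace E4 M] [IsManifold (𝓡 4) ∞ M]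
  [T2Space M] [SecondCountableTopology M] (τ : M → ℝ) (O : M → Ext E4) (L : ℝ) g, Continuous τ →
  (∀ a b, IsCompact (τ ⁻¹' Icc a b)) → Ori (𝓡 4) O → 1 ≤ L → (∃ x, τ x ∈ Ioo 0 (L + 1)) → Jc τ O L g →
  ∃ Z i, Cy τ O L g Z i

/-- NOV : additivity of the signature, cyclic form -/
def NovStmt : Prop := ∀ (Z : C4) (Y : Type) [TopologicalSpace Y] [ChartedSpace E3 Y]
  [IsManifold (𝓡 3) ∞ Y] [T2Space Y] [CompactSpace Y] [SecondCountableTopology Y] (φ : Y × ℝ → Z.Z),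
  IsOE ((𝓡 3).prod 𝓘(ℝ, ℝ)) (𝓡 4) φ → ∀ (n : ℕ) (e : Fin n → Z.Z → Ext E4),
  (∀ j, Cl (𝓡 4) 2 univ (e j)) → (∀ j z, e j (φ z) = 0) →
  (∀ j k, j ≠ k → integ (𝓡 4) Z.o (e j * e k) = 0) → (∀ j, integ (𝓡 4) Z.o (e j * e j) < 0) →
  ∀ h : φ '' (univ ×ˢ Ioi 1) ⊆ (φ '' (univ ×ˢ Icc (-1) 1))ᶜ, KB h n → Z.sg = -n

/-- HDL : one two-handle for every vertex -/
def HdlStmt : Prop := ∀ (B : Bs) (L : ℕ) (c : Ch L) (α β γ : ℝ), α < β → β ≤ 1 →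
  ∀ h : B.tm c ⁻¹' Ioo α β ⊆ B.tm c ⁻¹' Ioo α γ, KB h c.n

/-- SGN : the signature of the closed chain -/
def SgnStmt : Prop := ∀ (B : Bs) (L : ℕ) (c : Ch L) g, Jc (B.tm c) (B.O c) L g →
  ∀ Z i, Cy (B.tm c) (B.O c) L g Z i → ∀ e : Fin c.n → B.X c → Ext E4,
  (∀ j : Fin c.n, Cs (𝓡 4) 2 (B.tm c ⁻¹' Ioo ((j.1 : ℝ) + 3 / 2) (j.1 + 5 / 2)) (e j)) →
  (∀ j, integ (𝓡 4) (B.O c) (e j * e j) < 0) → Z.sg = -c.n

/-- INT : integrals over finite covers -/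
def IntStmt : Prop := ∀ (Z' Z : C4) (P : Z'.Z → Z.Z) (W : Set Z'.Z) (U : Set Z.Z) (p : ℕ), p ≠ 0 →
  IsOpen W → IsOpen U → (∀ y ∈ W, IsLocalDiffeomorphAt (𝓡 4) (𝓡 4) ∞ P y) → MapsTo P W U →
  (∀ x ∈ U, (W ∩ P ⁻¹' {x}).ncard = p) → Pos (𝓡 4) (𝓡 4) P W Z'.o Z.o →
  ∀ a, Sm (𝓡 4) univ a → integOn (𝓡 4) Z'.o (pm (𝓡 4) (𝓡 4) P a) W = p * integOn (𝓡 4) Z.o a U

/-- SIG : the signature theorem, for the tangent projector of some frame -/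
def SigStmt : Prop := ∀ Z : C4, ∃ (n : ℕ) (F : An.Fr (𝓡 4) Z.Z (Fin n)),
  Num57.cw (𝓡 4) Z.o (Num57.fz E4 fun x => Matrix.of fun a b => F.P a b x) = -(24 * Real.pi ^ 2) * Z.sg

/-- AR : arithmetic -/
def ArStmt : Prop := (∀ p s : ℤ, 0 < p → IsCoprime p s → Bor5.Sd p (-s) = -Bor5.Sd p s) ∧
  ∀ p q₀ q₁ : ℤ, 0 < p → q₀ < q₁ → IsCoprime p q₀ → IsCoprime p q₁ →
    ∃ (L : ℕ) (c' c : Ch L), c.a 1 = (q₀, p) ∧ c.a L = (q₁, p) ∧ c'.a 1 = (q₀, 1) ∧ c'.a L = (q₁, 1) ∧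
      (c'.del = p * c.del → Bor5.Sd p q₀ = Bor5.Sd p q₁)

/-- the output -/
def CgStmt : Prop := ∀ (k : Ext52.KD) (p q q' : ℤ), 0 < p → IsCoprime p q → IsCoprime p q' →
  Nrm38.Cos k p q q' → Bor5.Sd p q = Bor5.Sd p q' ∧ Bor5.Sd p q = -Bor5.Sd p (-q')

end Crest.Agent.X212.Cg28
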