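import Crest.Agent.X212.Cg28.Defs

/-!
# X212 / Cg28 (helper28): the closed two-form of a vertex (statement)
-/

set_option autoImplicit false
set_option linter.unusedSectionVars false

open Set Filter Topology Function Module
open scoped ContDiff Manifold
open Crest.Agent.R208 Crest.Agent.R208.F Crest.Agent.R208.FI Crest.Agent.X212.Dr59 Crest.Agent.X212.Int54
open Crest.Agent.X212.Rod53 Crest.Agent.X212.Line51 Crest.Agent.X212.Orx52 Crest.Agent.X212.Cyl58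

noncomputable section

namespace Crest.Agent.X212.Cg28

/-- a box in the toric part -/
def Bs.bx (B : Bs) {L : ℕ} (c : Ch L) (α β r : ℝ) : Set (B.X c) :=
  {x | x ∈ B.T.tor c.v ∧ B.tm c x ∈ Icc α β ∧ B.T.yy c.v x ≤ r}

/-- the closed two-form `e` of the vertex at time `i` and its potential `β` in the vertex chart -/
structure Frm (B : Bs) {L : ℕ} (c : Ch L) (i : ℤ) (e β : B.X c → Ext E4) (h : ℝ → ℝ) : Prop where
  sm : ContDiff ℝ ∞ h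
  cs : Cs (𝓡 4) 2 (B.tm c ⁻¹' Ioo ((i : ℝ) - 1 / 2) (i + 1 / 2)) e
  int : integ (𝓡 4) (B.O c) (e * e) = -((2 * Real.pi) ^ 2 * (c.t (i - 1) * c.t i))
  pot : ∀ x ∈ B.T.tor c.v, B.tm c x ∈ Ioo ((i : ℝ) - 1) (i + 1) →
    SmAt (𝓡 4) β x ∧ IsDeg 1 (β x) ∧ dM (𝓡 4) β x = e x
  out : ∀ x ∉ B.bx c (i - 1 / 4) (i + 1 / 4) (1 / 2), Int54.tp E4 ((e * e) x) = 0
  far : ∀ x ∈ B.T.tor c.v, x ∈ off B.T c.v → x ∉ B.bx c (i - 1 / 4) (i + 1 / 4) (1 / 2) →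
    β x = (1 - h (B.tm c x)) • ang (𝓡 4) (chi B.T c.v (0, 1)) x
      - c.t (i - 1) • ang (𝓡 4) (chi B.T c.v (dual (c.a (i - 1)) (c.a i) 1 0)) x

/-- FRM -/
def FrmStmt : Prop := ∀ (B : Bs) (L : ℕ) (c : Ch L) (i : ℤ), 2 ≤ i → i ≤ (c.n : ℤ) + 1 →
  ∃ e β h, Frm B c i e β h

end Crest.Agent.X212.Cg28
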