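import Crest.Agent.X212.Cg28.Glu
import Crest.Agent.X212.Met55.Mix

/-!
# X212 / Cg28 (helper28): the defect is multiplicative; the Casson-Gordon identity from the leaves
-/

set_option autoImplicit false
set_option linter.unusedSectionVars false

open Set Filter Topology Function Module
open scoped ContDiff Manifold
open Crest.Agent.R208 Crest.Agent.R208.FI
open Crest.Agent.R208.F hiding wd
open Crest.Agent.X212.Int54 hiding dt pr kap tp_pr pr_eq cAt_pr pm_pr kap_ne sigmaCompact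
open Crest.Agent.X212.Line51 hiding tp Uni
open Crest.Agent.X212.Dr59 Crest.Agent.X212.Rod53 Crest.Agent.X212.Pj41 Crest.Agent.X212.Orx52
open Crest.Agent.X212.Num57 (c2 EqO pa cw fz gr)

noncomputable section

namespace Crest.Agent.X212.Cg28

section gen

variable {E : Type} [NormedAddCommGroup E] [NormedSpace ℝ E] [FiniteDimensional ℝ E]
  {H : Type} [TopologicalSpace H] {I : ModelWithCorners ℝ E H}
  {M : Type} [TopologicalSpace M] [ChartedSpace H M] [I.Boundaryless] [IsManifold I ∞ M]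
  {κ : Type} [Fintype κ] [DecidableEq κ] {U : Set M} {S : Sy E M κ}
  {A B D : Matrix κ κ (M → Ext E)} {r : M → ℝ} {x : M}

theorem lc_congr (h : Lc x fun V => Tn I V S A) (e : ∀ᶠ y in 𝓝 x, ∀ a b, D a b y = A a b y) :
    Lc x fun V => Eqv I V S D S A :=
  (h.and (.of_ev e)).mono fun _ hV k => k.1.congr hV (fun _ _ _ => ⟨rfl, rfl⟩) fun a b y hy => k.2 y hy a b

theorem lc_one (hU : IsOpen U) (h : Tn I U S A) (e : EqO U D (mx2 r A B)) (hx : x ∈ U) (hr : r =ᶠ[𝓝 x] 1) :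
    Lc x fun V => Eqv I V S D S A := lc_congr (h.lc (hU.mem_nhds hx)) <| by
  filter_upwards [hU.mem_nhds hx, hr] with y a b i j
  rw [e i j y a, mx2_apply, b, Pi.one_apply, one_smul, sub_self, zero_smul, add_zero]

theorem Lc.c2 {κ' : Type} [Fintype κ'] [DecidableEq κ'] {S' : Sy E M κ'} {C : Matrix κ' κ' (M → Ext E)}
    (h : Lc x fun V => Eqv I V S A S' C) : c2 I A (tr S S) x = c2 I C (tr S' S') x :=
  let ⟨_, h1, h2, h3⟩ := h.ex
  (h3.c2 h1 h2).symm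

theorem Tn.sm_c2 (h : Tn I U S A) (hx : x ∈ U) : SmAt I (c2 I A (tr S S)) x := h.c.sm.c2 h.u.sm hx

end gen

variable {B' B : Bs} {L : ℕ} {c' c : Ch L} {p : ℕ} {π : B'.N → B.N} {P : B'.X c' → B.X c}
  {dk : Circle → B'.X c' → B'.X c'}
  {g' : PartialDiffeomorph (𝓡 4) (𝓡 4) (B'.X c') (B'.X c') ∞}
  {g : PartialDiffeomorph (𝓡 4) (𝓡 4) (B.X c) (B.X c) ∞} {Z' Z : C4} {i' : B'.X c' → Z'.Z}
  {i : B.X c → Z.Z}

instance : Nonempty (B.X c) := ⟨B.T.ext c.v (B.T.τ (1, 1), 0)⟩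

theorem bx_vu : B.bx c (3 / 2) (L - 1 / 2) 1 ⊆ B.vu c (Ioo 1 L) := fun _ k =>
  ⟨k.1, by linarith [k.2.1.1], by linarith [k.2.1.2]⟩

theorem vu_ioo {x : B.X c} (h : x ∈ B.vu c (Ioo 1 L)) : B.tm c x ∈ Ioo (0 : ℝ) (L + 1) :=
  ⟨by linarith [h.2.1], by linarith [h.2.2]⟩

theorem inj_vu (j : Jc (B.tm c) (B.O c) L g) (y : Cy (B.tm c) (B.O c) L g Z i) :
    InjOn i (B.vu c (Ioo 1 L)) := fun _ a _ b =>
  y.inj0 j ⟨(vu_ioo a).1, a.2.2.le⟩ ⟨(vu_ioo b).1, b.2.2.le⟩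

theorem closed_bx (y : Cy (B.tm c) (B.O c) L g Z i) : IsClosed (i '' B.bx c (3 / 2) (L - 1 / 2) 1) :=
  ((Bs.isCompact_bx _ _ _).image_of_continuousOn fun _ k =>
    (y.ld _ (vu_ioo (bx_vu k))).contMDiffAt.continuousAt.continuousWithinAt).isClosed

/-- the integral over the complement of the box is the defect -/
theorem count (j : Jc (B.tm c) (B.O c) L g) (y : Cy (B.tm c) (B.O c) L g Z i) (sg : Z.sg = -c.n) {n : ℕ}
    {F : An.Fr (𝓡 4) Z.Z (Fin n)}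
    (hF : cw (𝓡 4) Z.o (fz E4 fun x => Matrix.of fun a b => F.P a b x) = -(24 * Real.pi ^ 2) * Z.sg)
    {D : Matrix (Fin n) (Fin n) (Z.Z → Ext E4)} (hD : Tn (𝓡 4) univ (Sy.fr F) D) {a : B.X c → Ext E4}
    (ha : integOn (𝓡 4) (B.O c) a (B.bx c (3 / 2) (L - 1 / 2) 1) = 8 * Real.pi ^ 2 * (3 * c.n - c.del))
    (e : ∀ x ∈ B.bx c (3 / 2) (L - 1 / 2) 1,
      tp E4 (pm (𝓡 4) (𝓡 4) i (c2 (𝓡 4) D (tr (Sy.fr F) (Sy.fr F))) x) = tp E4 (a x)) :
    integOn (𝓡 4) Z.o (c2 (𝓡 4) D (tr (Sy.fr F) (Sy.fr F))) (i '' B.bx c (3 / 2) (L - 1 / 2) 1)ᶜ =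
      8 * Real.pi ^ 2 * c.del := by
  have m := (Bs.isCompact_bx (B := B) (c := c) (3 / 2) (L - 1 / 2) 1).isClosed.measurableSet
  have s := fun s => Z.ori.intOn (Num57.c0 fun x => hD.sm_c2 (mem_univ x)) s
  rw [← tr_fr, Num57.cw_eq Z.ori hD.c hD.u, sg, ← integOn_univ,
    ← union_compl_self (i '' B.bx c (3 / 2) (L - 1 / 2) 1),
    integOn_union disjoint_compl_right (closed_bx y).measurableSet.compl (s _) (s _),
    integOn_map rfl Z.ori (B.ox c).ori m (fun _ k => (y.ld _ (vu_ioo (bx_vu k))).contMDiffAt)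
      ((inj_vu j y).mono bx_vu) (SameOn.symm (y.pos.mono fun _ k => vu_ioo (bx_vu k))),
    integOn_congr m e, ha] at hF
  push_cast at hF
  linarith

/-- the connection on the base -/
theorem base (hT : TorStmt) (hS : SigStmt) (j : Jc (B.tm c) (B.O c) L g) (y : Cy (B.tm c) (B.O c) L g Z i)
    (sg : Z.sg = -c.n) : ∃ (n : ℕ) (S : Sy E4 Z.Z (Fin n)) (D : Matrix (Fin n) (Fin n) (Z.Z → Ext E4)),
    Tn (𝓡 4) univ S D ∧ integOn (𝓡 4) Z.o (c2 (𝓡 4) D (tr S S)) (i '' B.bx c (3 / 2) (L - 1 / 2) 1)ᶜ =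
      8 * Real.pi ^ 2 * c.del ∧ ∀ x ∈ B.bx c (3 / 2) (L - 1 / 2) 1, ∀ᶠ w in 𝓝 x, w ∈ off B.T c.v →
      w ∉ B.bx c (7 / 4) (L - 3 / 4) (1 / 2) → B.Bc c (S.pb (𝓡 4) (𝓡 4) i) (D.map (pa (𝓡 4) (𝓡 4) i)) w := by
  obtain ⟨n, F, hF⟩ := hS Z
  have oR : IsOpen (B.vu c (Ioo 1 L)) := Bs.isOpen_vu isOpen_Ioo
  have l := fun x (k : x ∈ B.vu c (Ioo 1 L)) => y.ld x (vu_ioo k)
  obtain ⟨C, h1, h2, h3⟩ := hT B L c _ _ ((fr_on F).pb l (mapsTo_univ _ _))
  obtain ⟨r, r1, r2, r3, -, r4⟩ := Met55.exists_cut (I := 𝓡 4) (Bs.isCompact_bx _ _ _) oR bx_vu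
  obtain ⟨D, d1, -, d3⟩ := glue oR l (inj_vu j y) (fr_on F) h1 r1 r2 r3
    (fun _ => image_eq_zero_of_notMem_tsupport) fun z => Or.inr (((fr_on F).gr isOpen_univ).lc univ_mem)
  refine ⟨n, _, D, d1, count j y sg hF d1 h3 fun x hx => ?_, fun x hx => ?_⟩
  · rw [← c2_pb (l x (bx_vu hx)) fun a b => d1.c.sm a b _ trivial, (lc_one oR h1 d3 (bx_vu hx) (r4 x hx)).c2]
  · filter_upwards [oR.mem_nhds (bx_vu hx), (r4 x hx).eventually_nhds] with w a b k1 k2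
    exact (h2 w a k1 k2).of_eqv (lc_one oR h1 d3 a b)

/-- a basic cut-off function -/
theorem exists_cut (B : Bs) (c : Ch L) : ∃ r : B.X c → ℝ, (∀ x, FSm (𝓡 4) r x) ∧
    (∀ x ∉ B.bx c (3 / 2) (L - 1 / 2) 1, r x = 0) ∧
    (∀ x ∈ B.bx c (7 / 4) (L - 3 / 4) (1 / 2), r =ᶠ[𝓝 x] 1) ∧ ∀ x ∈ B.T.tor c.v, Bf KQ (B.pr c) r x := by
  have h : (0 : ℝ) < 1 / 2 := by norm_num
  set Φ : ℝ × ℝ → ℝ := fun q => sw (1 / 8) (q.1 - 11 / 8) * sw (1 / 8) (L - 3 / 8 - q.1) * sw (1 / 4) (1 - q.2)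
  have s : ContDiff ℝ ∞ Φ := (((contDiff_sw _).comp (by fun_prop)).mul ((contDiff_sw _).comp (by fun_prop))).mul
    ((contDiff_sw _).comp (by fun_prop))
  refine ⟨fun x => Φ (B.tm c x, gw B.T c.v (1 / 2) x), fun x => s.contDiffAt.comp_contMDiffAt
    ((B.T.contMDiff_time x).prodMk_space (sm_gw h x)), fun x hx => ?_, fun x hx => ?_, fun x hx => ?_⟩
  · by_cases k : x ∈ B.T.tor c.v ∧ B.T.yy c.v x ≤ 2 * (1 / 2)
    · rcases not_and_or.1 (fun e => hx ⟨k.1, e, by linarith [k.2]⟩) with e | e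
      · simp only [Φ, sw_zero (r := 1 / 8) (y := B.tm c x - 11 / 8) (by norm_num) (by linarith), zero_mul]
      · simp only [Φ, sw_zero (r := 1 / 8) (y := L - 3 / 8 - B.tm c x) (by norm_num) (by linarith), zero_mul,
          mul_zero]
    · simp only [Φ, (gw_one h k).self_of_nhds, Pi.one_apply, sub_self,
        sw_zero (r := 1 / 4) (y := 0) (by norm_num) (by norm_num), mul_zero]
  · have a : gw B.T c.v (1 / 2) x < 1 / 2 := by
      exact ((gw_ev hx.1).self_of_nhds.trans (sw_zero h hx.2.2)).trans_lt h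
    have t := (B.T.continuous_time (v := c.v)).continuousAt (x := x)
    filter_upwards [(sm_gw h x).continuousAt.eventually_lt_const a,
      t.eventually_const_lt (show 13 / 8 < B.tm c x by linarith [hx.2.1.1]),
      t.eventually_lt_const (show B.tm c x < L - 5 / 8 by linarith [hx.2.1.2])] with w k1 k2 k3
    simp only [Φ]
    rw [sw_one (by norm_num) (by linarith), sw_one (by norm_num) (by linarith),
      sw_one (by norm_num) (by linarith), Pi.one_apply, mul_one, mul_one]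
  · exact Bs.bf_tm.comp₂ ((Bs.bf_yy.comp (contDiff_sw _).contDiffAt).congr (gw_ev hx)) s.contDiffAt

/-- **the defect is multiplicative** -/
theorem del_mul (hT : TorStmt) (hS : SigStmt) (hI : IntStmt) (hp : 0 < p) (b : Br B' B p π)
    (h : Cv c' c p π P dk) (j' : Jc (B'.tm c') (B'.O c') L g') (j : Jc (B.tm c) (B.O c) L g)
    (e : ∀ x ∈ g'.source, P (g' x) = g (P x)) (y' : Cy (B'.tm c') (B'.O c') L g' Z' i')
    (y : Cy (B.tm c) (B.O c) L g Z i) (sg' : Z'.sg = -c'.n) (sg : Z.sg = -c.n) : c'.del = p * c.del := by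
  obtain ⟨n, S, D, d1, d2, d3⟩ := base hT hS j y sg
  obtain ⟨Q, q1, q2, q3, q4⟩ := exists_cov h j' j e y' y
  obtain ⟨m, F, hF⟩ := hS Z'
  have h3 := c.three
  have oR : IsOpen (B'.vu c' (Ioo 1 L)) := Bs.isOpen_vu isOpen_Ioo
  have l := fun x (k : x ∈ B'.vu c' (Ioo 1 L)) => y'.ld x (vu_ioo k)
  obtain ⟨C, h1, h2, h4⟩ := hT B' L c' _ _ ((fr_on F).pb l (mapsTo_univ _ _))
  obtain ⟨r, r1, r2, r3, r4⟩ := exists_cut B' c'
  have mA : ∀ x ∉ B'.bx c' (7 / 4) (L - 3 / 4) (1 / 2), x ∈ B'.A c' := fun x k =>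
    Bs.mem_A (by norm_num) (by norm_num) (by linarith) k
  have sub : B'.bx c' (7 / 4) (L - 3 / 4) (1 / 2) ⊆ B'.bx c' (3 / 2) (L - 1 / 2) 1 := fun x k =>
    ⟨k.1, ⟨by linarith [k.2.1.1], by linarith [k.2.1.2]⟩, by linarith [k.2.2]⟩
  set S₀ := S.pb (𝓡 4) (𝓡 4) Q
  set D₀ := D.map (pa (𝓡 4) (𝓡 4) Q)
  have t : ∀ {z}, IsLocalDiffeomorphAt (𝓡 4) (𝓡 4) ∞ Q z →
      Lc z fun V => Eqv (𝓡 4) V (Sy.fr F) (tc (𝓡 4) S₀ D₀ (Sy.fr F)) S₀ D₀ := fun k =>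
    ((d1.lc univ_mem).eqv_pb k).mono fun V hV a => (Tn.tc hV a ((fr_on F).mono (subset_univ _))).symm
  have lq : ∀ z, (∃ x ∈ B'.bx c' (7 / 4) (L - 3 / 4) (1 / 2), i' x = z) ∨
      IsLocalDiffeomorphAt (𝓡 4) (𝓡 4) ∞ Q z := fun z => by
    obtain ⟨x, hx, rfl⟩ := y'.surj z
    exact (em _).imp (fun k => ⟨x, k, rfl⟩) fun k => (q1 x (mA x k) hx).2
  have lw : ∀ z ∈ (i' '' B'.bx c' (3 / 2) (L - 1 / 2) 1)ᶜ, IsLocalDiffeomorphAt (𝓡 4) (𝓡 4) ∞ Q z :=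
    fun z hz => (lq z).resolve_left fun ⟨x, k, a⟩ => hz ⟨x, sub k, a⟩
  obtain ⟨D', a1, a2, a3⟩ := glue (B := tc (𝓡 4) S₀ D₀ (Sy.fr F)) oR l (inj_vu j' y') (fr_on F) h1 r1
    (Bs.isCompact_bx _ _ _) bx_vu r2 fun z => (lq z).imp
      (fun ⟨x, k, a⟩ => ⟨x, bx_vu (sub k), a, r3 x k⟩) fun k => (t k).mono fun _ hV a => a.left hV
  have tp' := a1.pb oR l (mapsTo_univ _ _)
  have key := count j' y' sg' hF a1 h4 fun x hx => by
    rw [← c2_pb (l x (bx_vu hx)) fun a b => a1.c.sm a b _ trivial]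
    by_cases k : x ∈ B'.bx c' (7 / 4) (L - 3 / 4) (1 / 2)
    · rw [(lc_one oR h1 a3 (bx_vu hx) (r3 x k)).c2]
    have ev : ∀ᶠ w in 𝓝 x, w ∈ B'.vu c' (Ioo 1 L) ∧ w ∉ B'.bx c' (7 / 4) (L - 3 / 4) (1 / 2) :=
      (show ∀ᶠ w in 𝓝 x, _ from oR.mem_nhds (bx_vu hx)).and
        ((Bs.isCompact_bx _ _ _).isClosed.isOpen_compl.mem_nhds k)
    rw [Bs.tp_of_off (h1.sm_c2 (bx_vu hx)) (ev.mono fun w a o => Bs.bc_top (h2 w a.1 o a.2) a.1.1 o)]
    refine Bs.tp_of_off (Tn.sm_c2 tp' (bx_vu hx)) ?_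
    filter_upwards [ev, (h.ld x (mA x k)).contMDiffAt.continuousAt.eventually
      (d3 _ ((h.bx (mA x k)).2 hx))] with w a a' o
    have wA := mA w a.2
    obtain ⟨u1, u2⟩ := q1 w wA (vu_ioo a.1)
    have b1 := h.bc b hp a.1.1 o (a' (h.fre o) fun k => a.2 ((h.bx wA).1 k))
    have b2 : B'.Bc c' ((Sy.fr F).pb (𝓡 4) (𝓡 4) i')
        ((tc (𝓡 4) S₀ D₀ (Sy.fr F)).map (pa (𝓡 4) (𝓡 4) i')) w := by
      have c1 := (l w a.1).contMDiffAt.continuousAt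
      have c2 := (h.ld w wA).contMDiffAt.continuousAt
      refine b1.of_eqv ((((t u2).eqv_pb (l w a.1)).and (.of_ev (((u1.and (eventually_ld (l w a.1))).and
        (c1.eventually (eventually_ld u2))).and ((eventually_ld (h.ld w wA)).and (c2.eventually
          (eventually_ld (y.ld _ (by rw [h.tm w wA]; exact vu_ioo a.1)))))))).mono fun V hV k => ?_)
      have f1 := fun v hv => (k.2 v hv).1.1.2
      have f2 := fun v hv => (k.2 v hv).1.2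
      have f3 := fun v hv => (k.2 v hv).2.1
      have f4 := fun v hv => (k.2 v hv).2.2
      have f5 : EqOn (i ∘ P) (Q ∘ i') V := fun v hv => (k.2 v hv).1.1.1.symm
      refine (k.1.symm.congr hV (fun a v hv => ?_) (eqO_trans (map_comp f4 f3)
        (eqO_trans (map_congr hV f5) (eqO_symm (map_comp f2 f1))))).symm
      have g1 := pb_comp (S := S) f4 f3 a v hv
      have g2 := pb_congr (S := S) (J := 𝓡 4) (I := 𝓡 4) hV f5 a v hv
      have g3 := pb_comp (S := S) f2 f1 a v hv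
      exact ⟨(g1.1.trans g2.1).trans g3.1.symm, (g1.2.trans g2.2).trans g3.2.symm⟩
    have b3 := bsc_mx2 (Bs.pv a.1.1 o) r1 (r4 w a.1.1) (h2 w a.1 o a.2) b2
    exact Bs.bc_top (b3.of_eqv (lc_congr b3.tn
      (eventually_of_mem (oR.mem_nhds a.1) fun v hv a b => a3 a b v hv))) a.1.1 o
  rw [integOn_congr (b := pm (𝓡 4) (𝓡 4) Q (c2 (𝓡 4) D (tr S S))) (closed_bx y').measurableSet.compl
    fun z hz => ?_, hI Z' Z Q _ _ p hp.ne' (closed_bx y').isOpen_compl (closed_bx y).isOpen_compl lw q3 q4 q2 _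
      fun z _ => d1.sm_c2 (mem_univ z), d2] at key
  · have : (0 : ℝ) < 8 * Real.pi ^ 2 := by positivity
    exact mul_left_cancel₀ this.ne' (by linarith)
  · rw [Num57.c2_congr (a2 z hz) fun _ _ => rfl, (t (lw z hz)).c2,
      c2_pb (lw z hz) fun a b => d1.c.sm a b _ trivial]

theorem exists_cy (hC : CyStmt) (hG : SgnStmt) (j : Jc (B.tm c) (B.O c) L g) :
    ∃ Z i, Cy (B.tm c) (B.O c) L g Z i ∧ Z.sg = -c.n := by
  have h3 := c.three
  obtain ⟨Z, i, y⟩ := hC (B.X c) (B.tm c) (B.O c) L g B.T.continuous_time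
    (fun a b => B.T.isCompact_time isCompact_Icc fun t _ => c.loc t) (B.ox c).ori (by linarith)
    ⟨B.T.ext c.v (B.T.τ (1, 1), 1 / 2), by
      rw [Bs.tm, B.T.time_ext (B.T.τ_mem.2 one_ne_zero)]
      exact ⟨by norm_num, by linarith⟩⟩ j
  choose e β h k using fun a : Fin c.n => frm2 B c (a.1 + 2) (by omega) (by have := a.2; omega)
  refine ⟨Z, i, y, hG B L c g j Z i y e (fun a => (k a).cs.mono fun x hx => ?_) fun a => ?_⟩
  · push_cast at hx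
    exact ⟨by linarith [hx.1], by linarith [hx.2]⟩
  · have t : ∀ s, 0 < c.t s := fun s => by unfold Ch.t; exact_mod_cast c.pos s
    rw [(k a).int, neg_lt_zero]
    have := t ((a.1 : ℤ) + 2 - 1)
    have := t ((a.1 : ℤ) + 2)
    positivity

/-- **the Casson-Gordon identity** from the leaves -/
theorem cg (h1 : BrStmt) (h2 : CvStmt) (h3 : LiftStmt) (h4 : JcStmt) (h5 : CyStmt) (h6 : SgnStmt)
    (h7 : IntStmt) (h8 : SigStmt) (h9 : ArStmt) (h0 : TorStmt) : CgStmt := by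
  have key : ∀ (k : Ext52.KD) (p q q' : ℤ), 0 < p → IsCoprime p q → IsCoprime p q' → Nrm38.Cos k p q q' →
      q' < q → Bor5.Sd p q' = Bor5.Sd p q := fun k p q q' hp a a' co l => by
    obtain ⟨L, c', c, e1, e2, e3, e4, e5⟩ := h9.2 p q' q hp l a' a
    lift p to ℕ using hp.le
    have hp' : 0 < p := by exact_mod_cast hp
    obtain ⟨B, b1, b2⟩ := h4 k
    obtain ⟨g, j⟩ := b2 p q' q L c e1 e2 co
    obtain ⟨B', π, b⟩ := h1 B p hp'
    obtain ⟨P, dk, h⟩ := h2 B' B p π hp' b L c' c q' q e1 e2 e3 e4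
    obtain ⟨g', j', e⟩ := h3 B' B p π hp' b b1 L c' c P dk h g j
    obtain ⟨Z, i, y, sg⟩ := exists_cy h5 h6 j
    obtain ⟨Z', i', y', sg'⟩ := exists_cy h5 h6 j'
    exact e5 (by exact_mod_cast del_mul h0 h8 h7 hp' b h j' j e y' y sg' sg)
  intro k p q q' hp a a' co
  have e : Bor5.Sd p q = Bor5.Sd p q' := by
    rcases lt_trichotomy q q' with l | l | l
    · exact key k p q' q hp a' a co.symm l
    · rw [l]
    · exact (key k p q q' hp a a' co l).symm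
  exact ⟨e, by rw [h9.1 p q' hp a', neg_neg, e]⟩

end Crest.Agent.X212.Cg28
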