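import Crest.Agent.X212.Cg28.Stm

/-!
# X212 / Cg28 (helper28): gluing of connections, the closed manifolds and their cover
-/

set_option autoImplicit false
set_option linter.unusedSectionVars false

open Set Filter Topology Function Module
open scoped ContDiff Manifold
open Crest.Agent.R208 Crest.Agent.R208.FI
open Crest.Agent.R208.F hiding wd
open Crest.Agent.X212.Int54 hiding dt pr kap tp_pr pr_eq cAt_pr pm_pr kap_ne sigmaCompact
open Crest.Agent.X212.Line51 hiding tp Uni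
open Crest.Agent.X212.Dr59 Crest.Agent.X212.Rod53 Crest.Agent.X212.Pj41 Crest.Agent.X212.Orx52
open Crest.Agent.X212.Num57 (c2 EqO pa)
open Crest.Agent.X212.Glue52 (ld_of_comp ld_congr contMDiffAt_of_comp)

noncomputable section

namespace Crest.Agent.X212.Cg28

section gen

variable {E : Type} [NormedAddCommGroup E] [NormedSpace ℝ E] [FiniteDimensional ℝ E]
  {H : Type} [TopologicalSpace H] {I : ModelWithCorners ℝ E H}
  {M : Type} [TopologicalSpace M] [ChartedSpace H M] [I.Boundaryless] [IsManifold I ∞ M]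
  {E' : Type} [NormedAddCommGroup E'] [NormedSpace ℝ E'] [FiniteDimensional ℝ E']
  {H' : Type} [TopologicalSpace H'] {J : ModelWithCorners ℝ E' H'}
  {N : Type} [TopologicalSpace N] [ChartedSpace H' N] [J.Boundaryless] [IsManifold J ∞ N]
  {F : Type} [NormedAddCommGroup F] [NormedSpace ℝ F] [FiniteDimensional ℝ F]
  {G : Type} [TopologicalSpace G] {K : ModelWithCorners ℝ F G}
  {Q : Type} [TopologicalSpace Q] [ChartedSpace G Q] [K.Boundaryless] [IsManifold K ∞ Q]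
  {κ : Type} [Fintype κ] [DecidableEq κ] {o : Type} [Fintype o] {U : Set M} {S : Sy E M κ}
  {A B : Matrix κ κ (M → Ext E)} {r : M → ℝ}

/-- convex combination -/
def mx2 (r : M → ℝ) (A B : Matrix κ κ (M → Ext E)) : Matrix κ κ (M → Ext E) := r • A + (1 - r) • B

theorem mx2_eq : mx2 r A B = ∑ b : Bool, cond b r (1 - r) • cond b A B := by
  rw [Fintype.sum_bool]
  rfl

theorem mx2_apply (a b : κ) (x : M) : mx2 r A B a b x = r x • A a b x + (1 - r x) • B a b x := rfl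

theorem tn_mx2 (hU : IsOpen U) (h : S.On I U) (hr : ∀ x ∈ U, FSm I r x)
    (ha : (∀ x ∈ U, r x = 0) ∨ Tn I U S A) (hb : (∀ x ∈ U, r x = 1) ∨ Tn I U S B) :
    Tn I U S (mx2 r A B) := by
  rw [mx2_eq]
  refine eqv_mix hU h h (fun x _ => by simp) fun b => ?_
  cases b
  · exact hb.imp (fun k x hx => by simp [k x hx]) fun k => ⟨fun x hx => contMDiffAt_const.sub (hr x hx), k⟩
  · exact ha.imp id fun k => ⟨hr, k⟩

theorem bsc_mx2 {pr : M → Q} {σ : o → M → Ext E} {p : M} (hp : Pv I K pr p) (hr : ∀ x, FSm I r x)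
    (hf : Bf K pr r p) (ha : Bsc I K pr σ S A p) (hb : Bsc I K pr σ S B p) :
    Bsc I K pr σ S (mx2 r A B) p := by
  rw [mx2_eq]
  refine bsc_mix hp (.of_forall fun x => by simp) fun b => Or.inr ?_
  cases b
  · exact ⟨.of_forall fun x => contMDiffAt_const.sub (hr x), (bf_const 1).sub hf, hb⟩
  · exact ⟨.of_forall hr, hf, ha⟩

theorem mx2_map (f : N → M) : (mx2 r A B).map (pa I J f) =
    mx2 (r ∘ f) (A.map (pa I J f)) (B.map (pa I J f)) := Matrix.ext fun a b => funext fun y => by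
  change pm J I f (r • A a b + (1 - r) • B a b) y = _
  rw [pm_add, pm_fsmul, pm_fsmul]
  rfl

theorem isOpen_img {f : N → M} {W : Set N} (hW : IsOpen W) (hf : ∀ y ∈ W, IsLocalDiffeomorphAt J I ∞ f y) :
    IsOpen (f '' W) := by
  refine isOpen_iff_mem_nhds.2 ?_
  rintro _ ⟨y, hy, rfl⟩
  have h := hf y hy
  have c := h.localInverse_contMDiffAt.continuousAt
  rw [ContinuousAt, show h.localInverse (f y) = y from h.localInverse_eventuallyEq_left.self_of_nhds] at c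
  filter_upwards [c (hW.mem_nhds hy), h.localInverse_eventuallyEq_right] with z k1 k2 using ⟨_, k1, k2⟩

/-- a connection on `R`, pushed forward and glued to a connection of the complement -/
theorem glue [T2Space M] [Nonempty N] {i : N → M} {R : Set N} (hR : IsOpen R)
    (hl : ∀ y ∈ R, IsLocalDiffeomorphAt J I ∞ i y) (hi : InjOn i R) (hS : S.On I univ)
    {C : Matrix κ κ (N → Ext E')} (hC : Tn J R (S.pb J I i) C) {r : N → ℝ} (hr : ∀ y, FSm J r y)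
    {L : Set N} (hL : IsCompact L) (hLR : L ⊆ R) (h0 : ∀ y ∉ L, r y = 0)
    (hB : ∀ z, (∃ y ∈ R, i y = z ∧ r =ᶠ[𝓝 y] 1) ∨ Lc z fun V => Tn I V S B) :
    ∃ D, Tn I univ S D ∧ (∀ z ∉ i '' L, ∀ a b, D a b =ᶠ[𝓝 z] B a b) ∧
      EqO R (D.map (pa I J i)) (mx2 r C (B.map (pa I J i))) := by
  classical
  set j := invFunOn i R
  have e : ∀ y ∈ R, j ∘ i =ᶠ[𝓝 y] id := fun y hy =>
    eventually_of_mem (hR.mem_nhds hy) fun _ k => hi.leftInvOn_invFunOn k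
  have e1 : ∀ y ∈ R, j (i y) = y := fun y hy => (e y hy).self_of_nhds
  have lj : ∀ z ∈ i '' R, IsLocalDiffeomorphAt I J ∞ j z := by
    rintro _ ⟨y, hy, rfl⟩
    exact ld_inv (hl y hy) (e y hy)
  have mj : MapsTo j (i '' R) R := by
    rintro _ ⟨y, hy, rfl⟩
    rwa [e1 y hy]
  have oR := isOpen_img hR hl
  set ρ : M → ℝ := (i '' R).indicator (r ∘ j)
  have e2 : ∀ y ∈ R, ρ (i y) = r y := fun y hy => by
    rw [show ρ (i y) = _ from indicator_of_mem (mem_image_of_mem i hy) _, comp_apply, e1 y hy]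
  have cl : IsClosed (i '' L) :=
    (hL.image_of_continuousOn fun y hy => (hl y (hLR hy)).contMDiffAt.continuousAt.continuousWithinAt).isClosed
  have z0 : ∀ z ∉ i '' L, ρ =ᶠ[𝓝 z] 0 := fun z hz => by
    filter_upwards [cl.isOpen_compl.mem_nhds hz] with w hw
    by_cases k : w ∈ i '' R
    · obtain ⟨y, hy, rfl⟩ := k
      exact (e2 y hy).trans (h0 y fun l => hw (mem_image_of_mem i l))
    · exact indicator_of_notMem k _
  have sρ : ∀ z, FSm I ρ z := fun z => by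
    by_cases k : z ∈ i '' R
    · obtain ⟨y, hy, rfl⟩ := k
      exact contMDiffAt_of_comp (hl y hy)
        ((hr y).congr_of_eventuallyEq (eventually_of_mem (hR.mem_nhds hy) e2))
    · exact contMDiffAt_const.congr_of_eventuallyEq (z0 z fun l => k (image_mono hLR l))
  have tj : Tn I (i '' R) S (C.map (pa J I j)) := by
    have q : S.Eq ((S.pb J I i).pb I J j) (i '' R) := fun a z hz => by
      have k1 := pb_comp (S := S) (fun z hz => hl _ (mj hz)) lj a z hz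
      have k2 := pb_congr (S := S) (J := I) (I := I) (f := i ∘ j) (g := id) oR
        (fun w hw => invFunOn_eq hw) a z hz
      rw [pb_id] at k2
      exact ⟨(k1.1.trans k2.1).symm, (k1.2.trans k2.2).symm⟩
    exact (((hC.pb oR lj mj).congr oR q eqO_rfl).symm.congr oR q eqO_rfl)
  refine ⟨mx2 ρ (C.map (pa J I j)) B, eqv_of_lc fun z _ => ?_, fun z hz a b => ?_, fun a b y hy => ?_⟩
  · have k1 : Lc z fun V => (∀ x ∈ V, ρ x = 0) ∨ Tn I V S (C.map (pa J I j)) := by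
      by_cases k : z ∈ i '' R
      · exact (tj.lc (oR.mem_nhds k)).mono fun _ _ => Or.inr
      · exact (Lc.of_ev (z0 z fun l => k (image_mono hLR l))).mono fun _ _ => Or.inl
    have k2 : Lc z fun V => (∀ x ∈ V, ρ x = 1) ∨ Tn I V S B := by
      rcases hB z with ⟨y, hy, rfl, k⟩ | k
      · have c := (lj _ (mem_image_of_mem i hy)).contMDiffAt.continuousAt
        rw [ContinuousAt, e1 y hy] at c
        refine (Lc.of_ev ?_).mono fun _ _ => Or.inl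
        filter_upwards [c.eventually k, oR.mem_nhds (mem_image_of_mem i hy)] with w a b
        exact (indicator_of_mem b _).trans a
      · exact k.mono fun _ _ => Or.inr
    exact (k1.and k2).mono fun V hV k => tn_mx2 hV (hS.mono (subset_univ _)) (fun x _ => sρ x) k.1 k.2
  · filter_upwards [z0 z hz] with w hw
    rw [mx2_apply, hw, Pi.zero_apply, zero_smul, zero_add, sub_zero, one_smul]
  · rw [mx2_map, mx2_apply, mx2_apply, comp_apply, e2 y hy]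
    congr 2
    exact pm_pm_inv (hl y hy) (e y hy) _

end gen

section cy

variable {M : Type} [TopologicalSpace M] [ChartedSpace E4 M] {τ : M → ℝ} {O : M → Ext E4} {L : ℝ}
  {g : PartialDiffeomorph (𝓡 4) (𝓡 4) M M ∞} {Z : C4} {i : M → Z.Z}

theorem Cy.inj0 (h : Cy τ O L g Z i) (j : Jc τ O L g) : InjOn i (τ ⁻¹' Ioc 0 L) := by
  have k : ∀ x ∈ τ ⁻¹' Ioc 0 L, ∀ y ∈ τ ⁻¹' Ioc 0 L, τ x ≤ τ y → i x = i y → x = y := fun x hx y hy l e =>
    (h.inj x y ⟨hx.1, by linarith [hx.2]⟩ ⟨hy.1, by linarith [hy.2]⟩ l e).resolve_right fun q =>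
      (j.src ▸ q.1 : y ∈ τ ⁻¹' Ioo L (L + 1)).1.not_ge hy.2
  exact fun x hx y hy e => (le_total (τ x) (τ y)).elim (fun l => k x hx y hy l e)
    fun l => (k y hy x hx l e.symm).symm

theorem Jc.mem (j : Jc τ O L g) (hL : 1 ≤ L) {x : M} (h : τ x ∈ Ioo L (L + 1)) :
    x ∈ g.source ∧ τ (g x) ∈ Ioc 0 L := by
  have k : x ∈ g.source := j.src ▸ h
  rw [j.tm x k]
  exact ⟨k, by linarith [h.1], by linarith [h.2]⟩

theorem Cy.surj0 (h : Cy τ O L g Z i) (j : Jc τ O L g) (hL : 1 ≤ L) (z : Z.Z) :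
    ∃ x, τ x ∈ Ioc 0 L ∧ i x = z := by
  obtain ⟨x, hx, rfl⟩ := h.surj z
  rcases le_or_gt (τ x) L with k | k
  · exact ⟨x, ⟨hx.1, k⟩, rfl⟩
  · exact ⟨g x, (j.mem hL ⟨k, hx.2⟩).2, h.glue x (j.mem hL ⟨k, hx.2⟩).1⟩

end cy

theorem Ch.three {L : ℕ} (c : Ch L) : (3 : ℝ) ≤ L := by
  have := c.one
  have := c.le
  exact_mod_cast (by omega : 3 ≤ L)

section cov

variable {B' B : Bs} {L : ℕ} {c' c : Ch L} {p : ℕ} {π : B'.N → B.N} {P : B'.X c' → B.X c}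
  {dk : Circle → B'.X c' → B'.X c'} {x : B'.X c'} {α β r : ℝ}

theorem Bs.mem_A {x : B.X c} (hr : 0 ≤ r) (h1 : α ≤ 2) (h2 : (L : ℝ) - 1 ≤ β) (h : x ∉ B.bx c α β r) :
    x ∈ B.A c := by
  by_contra k
  simp only [Bs.A, mem_ofPred_eq, not_or, not_lt] at k
  have o : x ∉ off B.T c.v := not_lt.2 k.1
  exact h ⟨tor_of_not_off o, ⟨by linarith [k.2.1], by linarith [k.2.2]⟩, (yy_axis o).trans_le hr⟩

theorem Cv.tor (h : Cv c' c p π P dk) (hx : x ∈ B'.A c') : P x ∈ B.T.tor c.v ↔ x ∈ B'.T.tor c'.v :=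
  (h.hf x hx _ _ _).to_iff

theorem Cv.yy (h : Cv c' c p π P dk) (hx : x ∈ B'.A c') : B.T.yy c.v (P x) = B'.T.yy c'.v x :=
  h.hf x hx _ _ _

theorem Cv.fre (h : Cv c' c p π P dk) (hx : x ∈ off B'.T c'.v) : P x ∈ off B.T c.v :=
  (show B.T.eta c.v (P x) = B'.T.eta c'.v x from h.hf x (Or.inl hx) _ _ _).trans_lt hx

theorem Cv.bx (h : Cv c' c p π P dk) (hx : x ∈ B'.A c') : P x ∈ B.bx c α β r ↔ x ∈ B'.bx c' α β r := by
  simp only [Bs.bx, mem_ofPred_eq, h.tor hx, h.tm x hx, h.yy hx]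

theorem Cv.chr (h : Cv c' c p π P dk) (b : Br B' B p π) (h1 : x ∈ B'.T.tor c'.v) (h2 : x ∈ off B'.T c'.v) :
    chi B.T c.v (1, 0) (P x) = chi B'.T c'.v (1, 0) x ∧
      chi B.T c.v (0, 1) (P x) = chi B'.T c'.v (0, 1) x ^ p := by
  obtain ⟨⟨q, s⟩, hq, rfl⟩ := exists_ext_of_off h2
  obtain ⟨w, rfl⟩ := (B'.T.ext_mem_tor (p := (q, s)) hq).1 h1
  have hw := B'.T.τ_mem.1 hq
  rw [h.ext _ hq, b.tube, chi_ext (gl_ne.2 hw), chi_ext (gl_ne.2 hw), chi_ext hw, chi_ext hw,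
    chT_gl _ _ _ hw, chT_gl _ _ _ hw]
  simp [dot, chT]

/-- basic connections pull back to the cover -/
theorem Cv.bc (h : Cv c' c p π P dk) (b : Br B' B p π) (hp : 0 < p) (h1 : x ∈ B'.T.tor c'.v)
    (h2 : x ∈ off B'.T c'.v) {κ : Type} [Fintype κ] [DecidableEq κ] {S : Sy E4 (B.X c) κ}
    {C : Matrix κ κ (B.X c → Ext E4)} (k : B.Bc c S C (P x)) :
    B'.Bc c' (S.pb (𝓡 4) (𝓡 4) P) (C.map (pa (𝓡 4) (𝓡 4) P)) x := by
  have ev := fun {y : B'.X c'} => Bs.ev_free (B := B') (c := c') (x := y)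
  refine Bsc.pb (h.ld x (Or.inl h2)) (Bs.pv ((h.tor (Or.inl h2)).2 h1) (h.fre h2)) (Bs.pv h1 h2)
    (φ := fun q => (q.1 ^ p, q.2)) (fun q => (contMDiffAt_fst.pow p).prodMk contMDiffAt_snd)
    ((ev h1 h2).mono fun y a => ?_) (l := ![1, p, 1, 1]) (fun k => ?_) ((ev h1 h2).mono fun y a k => ?_) k
  · simp only [comp_apply, Bs.pr, (h.chr b a.1 a.2).2, h.tm y (Or.inl a.2), h.yy (Or.inl a.2)]
  · fin_cases k <;> simp [hp.ne']
  · have d := (h.ld y (Or.inl a.2)).mdifferentiableAt ne0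
    have t := (h.tor (Or.inl a.2)).2 a.1
    have o := h.fre a.2
    fin_cases k
    · exact ((pm_ang (csm_off t o) d).trans (ang_congr ((ev a.1 a.2).mono fun _ l =>
        (h.chr b l.1 l.2).1))).trans (one_smul ℝ _).symm
    · exact ((pm_ang (csm_off t o) d).trans (ang_congr ((ev a.1 a.2).mono fun _ l =>
        (h.chr b l.1 l.2).2))).trans (ang_pow (csm_off a.1 a.2) p)
    · exact ((pm_df d ((B.T.contMDiff_time _).mdifferentiableAt ne0)).trans (df_congr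
        ((ev a.1 a.2).mono fun z l => h.tm z (Or.inl l.2)))).trans (one_smul ℝ _).symm
    · exact ((pm_df d ((sm_yy t o).mdifferentiableAt ne0)).trans (df_congr
        ((ev a.1 a.2).mono fun z l => h.yy (Or.inl l.2)))).trans (one_smul ℝ _).symm

variable {g' : PartialDiffeomorph (𝓡 4) (𝓡 4) (B'.X c') (B'.X c') ∞}
  {g : PartialDiffeomorph (𝓡 4) (𝓡 4) (B.X c) (B.X c) ∞} {Z' Z : C4} {i' : B'.X c' → Z'.Z}
  {i : B.X c → Z.Z}

/-- the cover of the closed manifolds -/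
theorem exists_cov (h : Cv c' c p π P dk) (j' : Jc (B'.tm c') (B'.O c') L g') (j : Jc (B.tm c) (B.O c) L g)
    (e : ∀ x ∈ g'.source, P (g' x) = g (P x)) (y' : Cy (B'.tm c') (B'.O c') L g' Z' i')
    (y : Cy (B.tm c) (B.O c) L g Z i) : ∃ Q : Z'.Z → Z.Z,
    (∀ x ∈ B'.A c', B'.tm c' x ∈ Ioo 0 ((L : ℝ) + 1) →
      Q ∘ i' =ᶠ[𝓝 x] i ∘ P ∧ IsLocalDiffeomorphAt (𝓡 4) (𝓡 4) ∞ Q (i' x)) ∧
    Pos (𝓡 4) (𝓡 4) Q (i' '' B'.bx c' (3 / 2) (L - 1 / 2) 1)ᶜ Z'.o Z.o ∧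
    MapsTo Q (i' '' B'.bx c' (3 / 2) (L - 1 / 2) 1)ᶜ (i '' B.bx c (3 / 2) (L - 1 / 2) 1)ᶜ ∧
    ∀ z ∈ (i '' B.bx c (3 / 2) (L - 1 / 2) 1)ᶜ,
      ((i' '' B'.bx c' (3 / 2) (L - 1 / 2) 1)ᶜ ∩ Q ⁻¹' {z}).ncard = p := by
  have h3 := c.three
  have hL : (1 : ℝ) ≤ L := by linarith
  have : Nonempty (B'.X c') := ⟨B'.T.ext c'.v (B'.T.τ (1, 1), 0)⟩
  set Q : Z'.Z → Z.Z := i ∘ P ∘ invFunOn i' (B'.tm c' ⁻¹' Ioc 0 L)
  have tP : ∀ {J : Set ℝ}, ∀ x ∈ B'.A c', B'.tm c' x ∈ J → B.tm c (P x) ∈ J := fun x a b => by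
    rwa [h.tm x a]
  have e0 : ∀ x, B'.tm c' x ∈ Ioc 0 (L : ℝ) → Q (i' x) = i (P x) := fun x hx =>
    congrArg (i ∘ P) ((y'.inj0 j').leftInvOn_invFunOn hx)
  have e1 : ∀ x ∈ B'.A c' ∩ B'.tm c' ⁻¹' Ioo 0 ((L : ℝ) + 1), Q (i' x) = i (P x) := fun x hx => by
    rcases le_or_gt (B'.tm c' x) L with k | k
    · exact e0 x ⟨hx.2.1, k⟩
    · have a := j'.mem hL ⟨k, hx.2.2⟩
      rw [← y'.glue x a.1, e0 _ a.2, e x a.1, y.glue _ (j.mem hL (tP x hx.1 ⟨k, hx.2.2⟩)).1]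
  have oA : IsOpen (B'.A c' ∩ B'.tm c' ⁻¹' Ioo 0 ((L : ℝ) + 1)) :=
    (B'.isOpen_A c').inter (isOpen_Ioo.preimage B'.T.continuous_time)
  have l1 : ∀ x ∈ B'.A c' ∩ B'.tm c' ⁻¹' Ioo 0 ((L : ℝ) + 1), IsLocalDiffeomorphAt (𝓡 4) (𝓡 4) ∞ Q (i' x) :=
    fun x hx => ld_of_comp (y'.ld x hx.2) (ld_congr ((h.ld x hx.1).comp _ _ (y.ld _ (tP x hx.1 hx.2)))
      (eventually_of_mem (oA.mem_nhds hx) e1))
  have sb : ∀ {B : Bs} {c : Ch L} {x : B.X c}, x ∈ B.bx c (3 / 2) (L - 1 / 2) 1 → B.tm c x ∈ Ioc 0 (L : ℝ) :=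
    fun k => ⟨by linarith [k.2.1.1], by linarith [k.2.1.2]⟩
  have mA : ∀ {B : Bs} {c : Ch L} {x : B.X c}, x ∉ B.bx c (3 / 2) (L - 1 / 2) 1 → x ∈ B.A c :=
    fun k => Bs.mem_A zero_le_one (by norm_num) (by linarith) k
  have pre : ∀ w ∈ (i' '' B'.bx c' (3 / 2) (L - 1 / 2) 1)ᶜ, ∃ x, B'.tm c' x ∈ Ioc 0 (L : ℝ) ∧ i' x = w ∧
      x ∉ B'.bx c' (3 / 2) (L - 1 / 2) 1 := fun w hw =>
    let ⟨x, a, b⟩ := y'.surj0 j' hL w
    ⟨x, a, b, fun k => hw ⟨x, k, b⟩⟩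
  refine ⟨Q, fun x a b => ⟨eventually_of_mem (oA.mem_nhds ⟨a, b⟩) e1, l1 x ⟨a, b⟩⟩, ?_, fun w hw => ?_,
    fun z hz => ?_⟩
  · have a1 := y.pos.comp (t := B'.A c' ∩ B'.tm c' ⁻¹' Ioo 0 ((L : ℝ) + 1)) (h.pos.mono inter_subset_left)
      y.ld (fun x hx => h.ld x hx.1) fun x hx => tP x hx.1 hx.2
    refine (Pos.of_comp (a1.congr (f' := Q ∘ i') oA e1) (y'.pos.mono inter_subset_right) l1
      fun x hx => y'.ld x hx.2).mono fun w hw => ?_
    obtain ⟨x, a, rfl, b⟩ := pre w hw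
    exact ⟨x, ⟨mA b, a.1, by linarith [a.2]⟩, rfl⟩
  · obtain ⟨x, a, rfl, b⟩ := pre w hw
    rintro ⟨k, k1, k2⟩
    rw [e0 x a] at k2
    exact b ((h.bx (mA b)).1 (y.inj0 j (sb k1) (tP x (mA b) a) k2 ▸ k1))
  · obtain ⟨u, a, rfl⟩ := y.surj0 j hL z
    have b : u ∉ B.bx c (3 / 2) (L - 1 / 2) 1 := fun k => hz ⟨u, k, rfl⟩
    have t : ∀ x ∈ B'.A c' ∩ P ⁻¹' {u}, B'.tm c' x ∈ Ioc 0 (L : ℝ) := fun x hx => by
      rwa [← h.tm x hx.1, show P x = u from hx.2]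
    rw [← h.card u (mA b), ← ((y'.inj0 j').mono t).ncard_image]
    congr 1
    ext w
    refine ⟨fun ⟨k1, k2⟩ => ?_, ?_⟩
    · obtain ⟨x, a1, rfl, b1⟩ := pre w k1
      exact ⟨x, ⟨mA b1, y.inj0 j (tP x (mA b1) a1) a
        ((e0 x a1).symm.trans k2)⟩, rfl⟩
    · rintro ⟨x, hx, rfl⟩
      refine ⟨?_, (e0 x (t x hx)).trans (congrArg i hx.2)⟩
      rintro ⟨k, k1, k2⟩
      exact b (hx.2 ▸ (h.bx hx.1).2 (y'.inj0 j' (sb k1) (t x hx) k2 ▸ k1))

end cov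

end Crest.Agent.X212.Cg28
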