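import Crest.Agent.X212.Cg28.Geo
import Crest.Agent.X212.Tor17.Main
import Crest.Agent.X212.Vtx52.Main
import Crest.Agent.X212.Cy83.Br
import Crest.Agent.X212.Cy83.Cy
import Crest.Agent.X212.Lft9.Jc
import Crest.Agent.X212.Lft9.Main
import Crest.Agent.X212.Num57.Sig
import Crest.Agent.X212.Cv53.Main
import Crest.Agent.X212.Ar48.Main
import Crest.Agent.X212.Nov93.Sgn
import Crest.Agent.X212.Int17.Main
import Crest.Agent.X212.Dr59.Hdl
import Crest.Agent.X212.Bor5.Main

/-!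
# X212 / Cg28 (helper28): the Casson-Gordon input
-/

set_option autoImplicit false

namespace Crest.Agent.X212.Cg28

theorem cg_vtx (h : VtxStmt) : CgStmt :=
  cg Cy83.brStmt Cv53.cvStmt Lft9.lift Lft9.jc Cy83.cyStmt (Nov93.sgn Dr59.hdlStmt) Int17.int
    Num57.sigStmt Ar48.arStmt (Tor17.tor h)

theorem CgStmt.bor (h : CgStmt) : Bor5.CGStmt := fun k =>
  ⟨fun p q q' a b hp c => (h k p q q' hp a.2.2 b.2.2 c).1, fun p q s a b hp _ c => by
    simpa using (h k p q (-s) hp a.2.2 b.2.2.neg_right c).2⟩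

/-- **CG** -/
theorem cgStmt : Bor5.CGStmt := (cg_vtx Vtx52.vtx).bor

end Crest.Agent.X212.Cg28
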