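import Crest.Agent.X212.Cg28.Bas
import Crest.Agent.X212.Dr59.Frm

/-!
# X212 / Cg28 (helper28): basic germs on the rod manifold; the leaves VTX and TOR
-/

set_option autoImplicit false
set_option linter.unusedSectionVars false

open Set Filter Topology Function Module
open scoped ContDiff Manifold Real
open Crest.Agent.R208 Crest.Agent.R208.FI
open Crest.Agent.R208.F hiding wd
open Crest.Agent.X212.Int54 hiding dt pr kap tp_pr pr_eq cAt_pr pm_pr kap_ne sigmaCompact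
open Crest.Agent.X212.Line51 hiding tp Uni
open Crest.Agent.X212.Dr59 Crest.Agent.X212.Rod53 Crest.Agent.X212.Pj41
open Crest.Agent.X212.Num57 (c2)

noncomputable section

namespace Crest.Agent.X212.Cg28

/-- the model of `Circle × ℝ × ℝ` -/
abbrev KQ := (𝓡 1).prod 𝓘(ℝ, ℝ × ℝ)

theorem rank_KQ : finrank ℝ (EuclideanSpace ℝ (Fin 1) × ℝ × ℝ) < finrank ℝ E4 := by simp

/-- the times seen by the vertex chart number `i` -/
def Ch.jv {L : ℕ} (c : Ch L) (i : ℤ) : Set ℝ := Jv c.v (c.a (i - 1)) (c.a i) i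

namespace Bs

variable (B : Bs) {L : ℕ} (c : Ch L)

/-- the quotient by the longitudinal circle -/
def pr (x : B.X c) : Circle × ℝ × ℝ := (chi B.T c.v (0, 1) x, B.tm c x, B.T.yy c.v x)

/-- the toric coframe -/
def om : Fin 4 → B.X c → Ext E4 :=
  ![ang (𝓡 4) (chi B.T c.v (1, 0)), ang (𝓡 4) (chi B.T c.v (0, 1)), df (𝓡 4) (B.tm c),
    df (𝓡 4) (B.T.yy c.v)]

/-- the toric part over a set of times -/
def vu (J : Set ℝ) : Set (B.X c) := B.T.tor c.v ∩ B.tm c ⁻¹' J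

/-- basic connections -/
abbrev Bc {κ : Type} [Fintype κ] [DecidableEq κ] (S : Sy E4 (B.X c) κ)
    (C : Matrix κ κ (B.X c → Ext E4)) (x : B.X c) : Prop := Bsc (𝓡 4) KQ (B.pr c) (B.om c) S C x

variable {B c} {x : B.X c}

theorem isOpen_vu {J : Set ℝ} (h : IsOpen J) : IsOpen (B.vu c J) :=
  B.T.isOpen_tor.inter (h.preimage B.T.continuous_time)

theorem isCompact_bx (α β r : ℝ) : IsCompact (B.bx c α β r) :=
  B.T.isCompact_tor isCompact_Icc (fun t _ => c.loc t) r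

theorem ev_free (h : x ∈ B.T.tor c.v) (h' : x ∈ off B.T c.v) :
    ∀ᶠ y in 𝓝 x, y ∈ B.T.tor c.v ∧ y ∈ off B.T c.v :=
  (B.T.isOpen_tor.inter isOpen_off).mem_nhds ⟨h, h'⟩

theorem pv (h : x ∈ B.T.tor c.v) (h' : x ∈ off B.T c.v) : Pv (𝓡 4) KQ (B.pr c) x :=
  (ev_free h h').mono fun y k => (csm_off k.1 k.2).prodMk
    ((B.T.contMDiff_time y).prodMk_space (sm_yy k.1 k.2))

theorem bf_tm : Bf KQ (B.pr c) (B.tm c) x :=
  bf_of (γ := fun q : Circle × ℝ × ℝ => q.2.1)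
    (contDiff_fst.contDiffAt.comp_contMDiffAt contMDiffAt_snd)

theorem bf_yy : Bf KQ (B.pr c) (B.T.yy c.v) x :=
  bf_of (γ := fun q : Circle × ℝ × ℝ => q.2.2)
    (contDiff_snd.contDiffAt.comp_contMDiffAt contMDiffAt_snd)

theorem bm_th (h : x ∈ B.T.tor c.v) (h' : x ∈ off B.T c.v) :
    Bm (𝓡 4) KQ (B.pr c) (ang (𝓡 4) (chi B.T c.v (0, 1))) x :=
  bm_ang (pv h h') (γ := Prod.fst) fun _ => contMDiffAt_fst

theorem bc_top {κ : Type} [Fintype κ] [DecidableEq κ] {S : Sy E4 (B.X c) κ}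
    {C : Matrix κ κ (B.X c → Ext E4)} (k : B.Bc c S C x) (h : x ∈ B.T.tor c.v) (h' : x ∈ off B.T c.v) :
    Int54.tp E4 (c2 (𝓡 4) C (tr S S) x) = 0 := Bsc.tp rank_KQ (pv h h') k

/-- the axis has no interior -/
theorem tp_of_off {a : B.X c → Ext E4} (ha : SmAt (𝓡 4) a x)
    (h : ∀ᶠ y in 𝓝 x, y ∈ off B.T c.v → Int54.tp E4 (a y) = 0) : Int54.tp E4 (a x) = 0 := by
  have o := (B.ox c).ori
  have k := eq_of_dense dense_off (g := fun _ => (0 : ℝ)) (Orx52.contAt_rat (o.sm x) (o.ne x) ha)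
    continuousAt_const (h.mono fun y a b => by rw [rat, a b, zero_div])
  exact (div_eq_zero_iff.1 k).resolve_right (o.ne x)

end Bs

/-- `Frm` on the whole vertex chart -/
structure Frm2 (B : Bs) {L : ℕ} (c : Ch L) (i : ℤ) (e β : B.X c → Ext E4) (h : ℝ → ℝ) : Prop
    extends Frm B c i e β h where
  pot2 : ∀ x ∈ B.vu c (c.jv i), SmAt (𝓡 4) β x ∧ IsDeg 1 (β x) ∧ dM (𝓡 4) β x = e x

/-- the proof of `Dr59.frmStmt`, with the larger domain -/
theorem frm2 (B : Bs) {L : ℕ} (c : Ch L) (i : ℤ) (h1 : 2 ≤ i) (h2 : i ≤ (c.n : ℤ) + 1) :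
    ∃ e β h, Frm2 B c i e β h := by
  have hu := c.uni h1 h2
  set a := c.a (i - 1)
  set b := c.a i
  have hd : dt a b = -1 := c.det i h1 h2
  have hJ : Ioo ((i : ℝ) - 1) (i + 1) ⊆ Jv c.v a b i := Ioo_subset_Jv hu
  set y : ℝ × ℝ := c.t (i - 1) • rc2 (dual a b 1 0) with ey
  have hy : dr y b = 0 := by
    have := dr_rc2 (dual a b 1 0) b
    rw [dual_right hu] at this
    simp only [ey, dr, Prod.smul_fst, Prod.smul_snd, smul_eq_mul, Int.cast_zero] at *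
    linear_combination c.t (i - 1) * this
  have hx : dr (rc2 (0, 1) - y) a = 0 := by
    have := dr_rc2 (dual a b 1 0) a
    rw [dual_left hu] at this
    simp only [ey, dr, rc2, Prod.smul_fst, Prod.smul_snd, Prod.fst_sub, Prod.snd_sub, smul_eq_mul,
      Int.cast_zero, Int.cast_one, Ch.t] at *
    linear_combination -((c.a (i - 1)).2 : ℝ) * this
  have hα : ∀ R, XA B.T (ang (𝓡 3) B.θ) (rc2 (0, 1) - y + y) R := fun R => by
    rw [sub_add_cancel]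
    exact xa_ang ⟨B.sm, fun w hw => by simp [B.θτ w hw, chT]⟩ R
  obtain ⟨F, hF⟩ := exists_TG (r := 1 / 4) (by norm_num)
    (adm_vp hx hy fun t ht => hJ ⟨by linarith [ht.1], by linarith [ht.2]⟩)
    (contDiff_const.sub (cd_s1 i) : ContDiff ℝ ∞ fun t => 1 - s1 i t) (hα 1)
  obtain ⟨β, hβ, hβ'⟩ := hF.exists_pot (J := Jv c.v a b i) isOpen_interior
    fun t ht => (ev_vp hx hy ht).mono fun _ => And.right
  have hc := hF.cs_time (hα 1) (by norm_num) c.loc (isCompact_Icc (a := (i : ℝ) - 1 / 6) (b := i + 1 / 6))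
    fun t => ev_out
  have ho : ∀ x ∉ B.bx c (i - 1 / 4) (i + 1 / 4) (1 / 2), B.tm c x ∉ Icc ((i : ℝ) - 1 / 6) (i + 1 / 6) ∨
      ¬(x ∈ B.T.tor c.v ∧ B.T.yy c.v x ≤ 2 * (1 / 4)) := fun x hx => by
    by_contra k
    rw [not_or, not_not, not_not] at k
    exact hx ⟨k.2.1, ⟨by linarith [k.1.1], by linarith [k.1.2]⟩, by linarith [k.2.2]⟩
  refine ⟨F, β, s1 i, ⟨cd_s1 i, hc.mono fun x hx => ⟨by linarith [hx.1], by linarith [hx.2]⟩, ?_,
    fun x hx k => hβ x hx (hJ k), fun x hx => ?_, fun x hx k e => ?_⟩, fun x hx => hβ x hx.1 hx.2⟩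
  · refine (hF.tf.ip_eq (B.ox c) B.pos isOpen_univ hF.tf (hc.mono (subset_univ _))).trans ?_
    rw [integral_vp]
    simp only [ey, det2, rc2, dual, hd, Prod.smul_fst, Prod.smul_snd, Prod.fst_sub, Prod.snd_sub, smul_eq_mul, Ch.t]
    push_cast
    ring
  · rcases ho x hx with k | k
    · rw [Pi.mul_apply, hc.eq_zero k, mul_zero, map_zero]
    · rw [hF.sq_far (hα 1) k, map_zero]
  · have k1 := (hα (B.T.yy c.v x + 1)).ax_eq ⟨hx, k, lt_add_one _⟩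
    rw [hβ' x k, pot_apply, k1, ang_chi (η := dual a b 1 0) hx k, tq_apply, tq_apply, tq_apply, sub_add_cancel]
    rcases ho x e with l | l
    · obtain ⟨s, l⟩ := ev_out (x := rc2 (0, 1) - y) (y := y) l
      rw [l.self_of_nhds.1, l.self_of_nhds.2, sub_add_cancel]
      simp only [ey, rc2, Prod.smul_fst, Prod.smul_snd, smul_eq_mul, Int.cast_zero, Int.cast_one]
      module
    · rw [(gw_one (by norm_num) l).self_of_nhds]
      simp only [ey, rc2, Prod.smul_fst, Prod.smul_snd, smul_eq_mul, Int.cast_zero, Int.cast_one, Pi.one_apply]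
      module

/-- VTX : the connection `diag (J β / t_a, - J β / t_b)` of the vertex chart -/
def VtxStmt : Prop := ∀ (B : Bs) (L : ℕ) (c : Ch L) (i : ℤ), 2 ≤ i → i ≤ (c.n : ℤ) + 1 →
  ∀ e β h, Frm2 B c i e β h → ∃ (S : Sy E4 (B.X c) F4) (A : Matrix F4 F4 (B.X c → Ext E4)),
    Tn (𝓡 4) (B.vu c (c.jv i)) S A ∧
    (∀ x ∈ B.vu c (c.jv i), c2 (𝓡 4) A (tr S S) x =
      (-2 * ((c.t (i - 1))⁻¹ ^ 2 + (c.t i)⁻¹ ^ 2)) • (e * e) x) ∧
    ∀ x ∈ B.vu c (c.jv i), x ∈ off B.T c.v → x ∉ B.bx c (i - 1 / 4) (i + 1 / 4) (1 / 2) → B.Bc c S A x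

/-- TOR : the connection of the toric part -/
def TorStmt : Prop := ∀ (B : Bs) (L : ℕ) (c : Ch L) (κ : Type) [Fintype κ] [DecidableEq κ]
  (S : Sy E4 (B.X c) κ), S.On (𝓡 4) (B.vu c (Ioo 1 L)) → ∃ C : Matrix κ κ (B.X c → Ext E4),
    Tn (𝓡 4) (B.vu c (Ioo 1 L)) S C ∧
    (∀ x ∈ B.vu c (Ioo 1 L), x ∈ off B.T c.v → x ∉ B.bx c (7 / 4) (L - 3 / 4) (1 / 2) → B.Bc c S C x) ∧
    integOn (𝓡 4) (B.O c) (c2 (𝓡 4) C (tr S S)) (B.bx c (3 / 2) (L - 1 / 2) 1) =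
      8 * π ^ 2 * (3 * c.n - c.del)

end Crest.Agent.X212.Cg28
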