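import Crest.Agent.X212.Num57.Cnn
import Crest.Agent.X212.Orx52.Gen
import Crest.Agent.X212.Pj41.Sm

/-!
# X212 / Cg28 (helper28): connections on the tangent bundle

`Sy` : generating systems of one-forms and vector fields; `tr` : transition matrices;
`Eqv U S C S' C'` : the matrices `C`, `C'` describe the same connection on `U`.
-/

set_option autoImplicit false
set_option linter.unusedSectionVars false

open Set Filter Topology Function Module Matrix
open scoped ContDiff Manifold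
open Crest.Agent.R208 Crest.Agent.R208.F Crest.Agent.X212.Dr59 Crest.Agent.X212.Int54
open Crest.Agent.X212.Num57 Crest.Agent.X212.Pj41

noncomputable section

namespace Crest.Agent.X212.Cg28

section lc

variable {M N : Type*} [TopologicalSpace M] [TopologicalSpace N] {x : M} {P Q : Set M → Prop}

/-- `P` holds for the small open sets near `x` -/
def Lc (x : M) (P : Set M → Prop) : Prop := ∀ᶠ U in (𝓝 x).smallSets, IsOpen U → P U

theorem Lc.of {U : Set M} (hU : U ∈ 𝓝 x) (h : ∀ V ⊆ U, IsOpen V → P V) : Lc x P :=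
  eventually_smallSets.2 ⟨U, hU, h⟩

theorem Lc.all (h : Lc x P) : ∃ U, IsOpen U ∧ x ∈ U ∧ ∀ V ⊆ U, IsOpen V → P V :=
  let ⟨s, hs, k⟩ := eventually_smallSets.1 h
  ⟨interior s, isOpen_interior, mem_interior_iff_mem_nhds.2 hs, fun V hV => k V (hV.trans interior_subset)⟩

theorem Lc.ex (h : Lc x P) : ∃ U, IsOpen U ∧ x ∈ U ∧ P U :=
  let ⟨U, h1, h2, h3⟩ := h.all
  ⟨U, h1, h2, h3 U subset_rfl h1⟩

theorem Lc.ev (h : Lc x P) : ∀ᶠ y in 𝓝 x, Lc y P :=
  let ⟨_, h1, h2, h3⟩ := h.all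
  eventually_of_mem (h1.mem_nhds h2) fun _ hy => .of (h1.mem_nhds hy) h3

theorem Lc.mono (h : Lc x P) (k : ∀ U, IsOpen U → P U → Q U) : Lc x Q :=
  Eventually.mono h fun U a hU => k U hU (a hU)

theorem Lc.and (h : Lc x P) (h' : Lc x Q) : Lc x fun U => P U ∧ Q U :=
  (Eventually.and h h').mono fun _ a hU => ⟨a.1 hU, a.2 hU⟩

theorem Lc.of_ev {p : M → Prop} (h : ∀ᶠ y in 𝓝 x, p y) : Lc x fun U => ∀ y ∈ U, p y :=
  .of h fun _ hV _ _ hy => hV hy

theorem Lc.fin {ι : Type*} [Finite ι] {R : ι → Set M → Prop} (h : ∀ j, Lc x (R j)) :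
    Lc x fun U => ∀ j, R j U := (eventually_all.2 h).mono fun _ a hU j => a j hU

theorem Lc.pb {f : N → M} {y : N} (hf : ContinuousAt f y) (h : Lc (f y) P) :
    Lc y fun W => ∃ U, IsOpen U ∧ MapsTo f W U ∧ P U :=
  let ⟨U, h1, h2, h3⟩ := h.ex
  .of (hf (h1.mem_nhds h2)) fun _ hV _ => ⟨U, h1, hV, h3⟩

end lc

variable {E : Type} [NormedAddCommGroup E] [NormedSpace ℝ E] [FiniteDimensional ℝ E]
  {H : Type} [TopologicalSpace H] {I : ModelWithCorners ℝ E H}
  {M : Type} [TopologicalSpace M] [ChartedSpace H M] [I.Boundaryless] [IsManifold I ∞ M]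
  {E' : Type} [NormedAddCommGroup E'] [NormedSpace ℝ E'] [FiniteDimensional ℝ E']
  {H' : Type} [TopologicalSpace H'] {J : ModelWithCorners ℝ E' H'}
  {N : Type} [TopologicalSpace N] [ChartedSpace H' N] [J.Boundaryless] [IsManifold J ∞ N]
  {E'' : Type} [NormedAddCommGroup E''] [NormedSpace ℝ E''] [FiniteDimensional ℝ E'']
  {H'' : Type} [TopologicalSpace H''] {K : ModelWithCorners ℝ E'' H''}
  {P : Type} [TopologicalSpace P] [ChartedSpace H'' P] [K.Boundaryless] [IsManifold K ∞ P]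
  {κ κ' κ'' : Type} [Fintype κ] [Fintype κ'] [Fintype κ''] [DecidableEq κ] [DecidableEq κ']
  [DecidableEq κ''] {m n : Type} {U V : Set M} {x : M}

/-! ### matrices -/

section mat

variable {X Y Z : Matrix m n (M → Ext E)}

theorem eqO_iff : EqO U X Y ↔ ∀ x ∈ U, X.map (ea x) = Y.map (ea x) :=
  ⟨fun h x hx => ea_congr fun i j => h i j x hx, fun h i j x hx => congrFun (congrFun (h x hx) i) j⟩

theorem eqO_rfl : EqO U X X := fun _ _ _ _ => rfl
theorem eqO_symm (h : EqO U X Y) : EqO U Y X := fun i j x hx => (h i j x hx).symm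
theorem eqO_trans (h : EqO U X Y) (h' : EqO U Y Z) : EqO U X Z :=
  fun i j x hx => (h i j x hx).trans (h' i j x hx)

theorem eqO_mul {A A' : Matrix m κ (M → Ext E)} {B B' : Matrix κ n (M → Ext E)} (h : EqO U A A')
    (h' : EqO U B B') : EqO U (A * B) (A' * B') := eqO_iff.2 fun x hx => by
  rw [mp_mul, mp_mul, eqO_iff.1 h x hx, eqO_iff.1 h' x hx]

theorem eqO_ev (hU : IsOpen U) (h : EqO U X Y) (hx : x ∈ U) (i : m) (j : n) : X i j =ᶠ[𝓝 x] Y i j :=
  eventually_of_mem (hU.mem_nhds hx) (h i j)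

theorem fz_mul' (S : M → Matrix m κ ℝ) (T : M → Matrix κ n ℝ) :
    fz E (fun x => S x * T x) = fz E S * fz E T := by
  ext i j x
  simp [fz, fn, Matrix.mul_apply, Finset.sum_apply, map_sum]

theorem fz_one' : fz E (fun _ : M => (1 : Matrix κ κ ℝ)) = 1 := by
  ext i j x
  by_cases h : i = j
  · subst h; simp [fz, fn]
  · simp [fz, fn, Matrix.one_apply_ne h]

theorem fz_ev' (T : M → Matrix m n ℝ) : Ev U (fz E T) := fun _ _ _ _ => AlgHom.commutes _ _

theorem fz_ms' {T : M → Matrix m n ℝ} (h : ∀ i j, ∀ x ∈ U, FSm I (fun x => T x i j) x) :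
    MS I U (fz E T) := fun i j x hx => cAt_fn le_rfl (h i j x hx)

theorem fz_congr' {S T : M → Matrix m n ℝ} (h : ∀ x ∈ U, S x = T x) : EqO U (fz E S) (fz E T) :=
  fun i j x hx => by simp [fz, fn, h x hx]

variable {C D : Matrix κ κ (M → Ext E)} {C' D' : Matrix κ' κ' (M → Ext E)}
  {u : Matrix κ' κ (M → Ext E)} {v : Matrix κ κ' (M → Ext E)}

theorem co_congr (hU : IsOpen U) (h : Co I U C) (e : EqO U D C) : Co I U D :=
  ⟨fun i j x hx => (h.sm i j x hx).congr (eqO_ev hU e hx i j), fun i j x hx => by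
    rw [e i j x hx, h.od i j x hx]⟩

theorem itw_at (h : Itw I U C C' u) (hx : x ∈ U) :
    (md I u).map (ea x) + C'.map (ea x) * u.map (ea x) - u.map (ea x) * C.map (ea x) = 0 := by
  simpa only [mp_sub, mp_add, mp_mul, mp_zero] using eqO_iff.1 h.eq x hx

theorem itw_of (h1 : MS I U u) (h2 : Ev U u) (h : ∀ x ∈ U,
    (md I u).map (ea x) + C'.map (ea x) * u.map (ea x) - u.map (ea x) * C.map (ea x) = 0) :
    Itw I U C C' u :=
  ⟨h1, h2, eqO_iff.2 fun x hx => by simpa only [mp_sub, mp_add, mp_mul, mp_zero] using h x hx⟩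

theorem itw_congr (h : Itw I U C C' u) (e : EqO U D C) (e' : EqO U D' C') : Itw I U D D' u :=
  itw_of h.sm h.ev fun x hx => by
    rw [eqO_iff.1 e x hx, eqO_iff.1 e' x hx]
    exact itw_at h hx

theorem pa_one : Pa I U C 1 := by
  refine itw_of ms_one (fz_one' (E := E) (M := M) (κ := κ) ▸ fz_ev' _) fun x _ => ?_
  have : (md I (1 : Matrix κ κ (M → Ext E))).map (ea x) = 0 := by
    ext i j
    by_cases h : i = j
    · subst h; simp [md, dM_one]
    · simp [md, Matrix.one_apply_ne h, dM_zero]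
  rw [this, mp_one, zero_add, Matrix.mul_one, Matrix.one_mul, sub_self]

/-- the inverse of an intertwiner -/
theorem itw_inv (hU : IsOpen U) (hC : MS I U C) (h : Itw I U C C' u) (hv : MS I U v) (ev : Ev U v)
    (h1 : EqO U (u * v) 1) (h2 : EqO U (v * u) 1) : Itw I U C' C v := by
  have hp : Pa I U C (v * u) := pa_one.congr hU h2
  have k := tpt_u hU hC h.sm hv h.ev ev hp (by simpa using eqO_mul (eqO_rfl (X := u)) h2)
  refine itw_congr (tpt_v hU hC h.sm hv ev hp (by simpa using eqO_mul h2 (eqO_rfl (X := v))))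
    (eqO_iff.2 fun x hx => ?_) eqO_rfl
  have a : C'.map (ea x) * u.map (ea x) = (tpt I C u v).map (ea x) * u.map (ea x) :=
    add_left_cancel (sub_left_injective ((itw_at h hx).trans (itw_at k hx).symm))
  have b := eqO_iff.1 h1 x hx
  rw [mp_mul, mp_one] at b
  rw [← Matrix.mul_one (C'.map _), ← b, ← Matrix.mul_assoc, a, Matrix.mul_assoc, b, Matrix.mul_one]

variable {ι : Type} [Fintype ι] {ψ : ι → M → ℝ}

theorem map_mix (ψ : ι → M → ℝ) (X : ι → Matrix m n (M → Ext E)) (x : M) :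
    (∑ j, ψ j • X j).map (ea x) = ∑ j, ψ j x • (X j).map (ea x) := by
  ext a b
  simp [Matrix.sum_apply]

theorem mix_apply (ψ : ι → M → ℝ) (X : ι → Matrix m n (M → Ext E)) (a : m) (b : n) :
    (∑ j, ψ j • X j) a b = ∑ j, ψ j • X j a b := by
  simp [Matrix.sum_apply]

theorem co_mix (hU : IsOpen U) {C : ι → Matrix κ κ (M → Ext E)}
    (h : ∀ j, (∀ x ∈ U, ψ j x = 0) ∨ ((∀ x ∈ U, FSm I (ψ j) x) ∧ Co I U (C j))) :
    Co I U (∑ j, ψ j • C j) := by
  refine ⟨fun a b x hx => ?_, fun a b x hx => ?_⟩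
  · rw [mix_apply]
    refine cAt_sum fun j _ => (h j).elim (fun k => cAt_zero.congr ?_) fun k =>
      CAt.fsmul le_rfl (k.1 x hx) (k.2.sm a b x hx)
    filter_upwards [hU.mem_nhds hx] with y hy using by simp [k y hy]
  · rw [mix_apply, Finset.sum_apply, map_sum, ← Finset.sum_neg_distrib]
    refine Finset.sum_congr rfl fun j _ => (h j).elim (fun k => by simp [k x hx]) fun k => ?_
    rw [Pi.smul_apply', map_smul, k.2.od a b x hx, smul_neg]

theorem itw_mix {C : ι → Matrix κ κ (M → Ext E)} {C' : ι → Matrix κ' κ' (M → Ext E)}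
    (h1 : MS I U u) (h2 : Ev U u) (hs : ∀ x ∈ U, ∑ j, ψ j x = 1)
    (h : ∀ j, (∀ x ∈ U, ψ j x = 0) ∨ Itw I U (C j) (C' j) u) :
    Itw I U (∑ j, ψ j • C j) (∑ j, ψ j • C' j) u := itw_of h1 h2 fun x hx => by
  rw [map_mix, map_mix, ← one_smul ℝ ((md I u).map _), ← hs x hx, Finset.sum_smul, Matrix.sum_mul,
    Matrix.mul_sum, ← Finset.sum_add_distrib, ← Finset.sum_sub_distrib]
  refine Finset.sum_eq_zero fun j _ => ?_
  rw [Matrix.smul_mul, Matrix.mul_smul, ← smul_add, ← smul_sub]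
  exact (h j).elim (fun k => by rw [k x hx, zero_smul]) fun k => by rw [itw_at k hx, smul_zero]

end mat

/-! ### systems -/

variable (E M κ) in
/-- one-forms and vector fields -/
structure Sy where
  th : κ → M → Ext E
  e : κ → M → E

variable (I) in
/-- `∑ th a ⊗ e a` is the identity on `U` -/
structure Sy.On (S : Sy E M κ) (U : Set M) : Prop where
  sm : ∀ a, ∀ x ∈ U, SmAt I (S.th a) x
  ex : ∀ x ∈ U, ∀ v, ∑ a, e1 (S.th a x) v • S.e a x = v
  te : ∀ a, ∀ x ∈ U, ∀ α, SmAt I α x → FSm I (fun y => e1 (α y) (S.e a y)) x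

/-- the transition matrix -/
def tr (S' : Sy E M κ') (S : Sy E M κ) : Matrix κ' κ (M → Ext E) :=
  fz E fun x => Matrix.of fun b a => e1 (S'.th b x) (S.e a x)

/-- equal on `U` -/
def Sy.Eq (S S' : Sy E M κ) (U : Set M) : Prop := ∀ a, ∀ x ∈ U, S.th a x = S'.th a x ∧ S.e a x = S'.e a x

variable (I) in
/-- the same connection -/
structure Eqv (U : Set M) (S : Sy E M κ) (C : Matrix κ κ (M → Ext E)) (S' : Sy E M κ')
    (C' : Matrix κ' κ' (M → Ext E)) : Prop where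
  s : S.On I U
  s' : S'.On I U
  c : Co I U C
  c' : Co I U C'
  u : Itw I U C C' (tr S' S)
  v : Itw I U C' C (tr S S')

variable (I) in
/-- a connection on the tangent bundle -/
abbrev Tn (U : Set M) (S : Sy E M κ) (C : Matrix κ κ (M → Ext E)) : Prop := Eqv I U S C S C

variable {S R : Sy E M κ} {S' R' : Sy E M κ'} {S'' : Sy E M κ''} {C D : Matrix κ κ (M → Ext E)}
  {C' D' : Matrix κ' κ' (M → Ext E)} {C'' : Matrix κ'' κ'' (M → Ext E)}

theorem Sy.On.mono (h : S.On I U) (hV : V ⊆ U) : S.On I V :=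
  ⟨fun a x hx => h.sm a x (hV hx), fun x hx => h.ex x (hV hx), fun a x hx => h.te a x (hV hx)⟩

theorem Sy.Eq.symm (h : S.Eq R U) : R.Eq S U := fun a x hx => ⟨(h a x hx).1.symm, (h a x hx).2.symm⟩

theorem Sy.On.congr (hU : IsOpen U) (h : S.On I U) (e : R.Eq S U) : R.On I U :=
  ⟨fun a x hx => (h.sm a x hx).congr (eventually_of_mem (hU.mem_nhds hx) fun y hy => (e a y hy).1),
    fun x hx v => by simpa only [(e _ x hx).1, (e _ x hx).2] using h.ex x hx v,
    fun a x hx α hα => (h.te a x hx α hα).congr_of_eventuallyEq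
      (eventually_of_mem (hU.mem_nhds hx) fun y hy => by simp only [(e a y hy).2])⟩

theorem tr_ev : Ev U (tr S' S) := fz_ev' _

theorem tr_ms (h' : S'.On I U) (h : S.On I U) : MS I U (tr S' S) :=
  fz_ms' fun b a x hx => h.te a x hx _ (h'.sm b x hx)

theorem tr_mul (h : S'.On I U) : EqO U (tr S'' S' * tr S' S) (tr S'' S) := by
  rw [tr, tr, ← fz_mul']
  refine fz_congr' fun x hx => Matrix.ext fun c a => ?_
  simp only [Matrix.mul_apply, Matrix.of_apply]
  conv_rhs => rw [← h.ex x hx (S.e a x), e1_vsum]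
  exact Finset.sum_congr rfl fun _ _ => mul_comm _ _

theorem tr_congr (e' : R'.Eq S' U) (e : R.Eq S U) : EqO U (tr R' R) (tr S' S) :=
  fz_congr' fun x hx => Matrix.ext fun b a => by simp only [Matrix.of_apply, (e' b x hx).1, (e a x hx).2]

theorem Eqv.symm (h : Eqv I U S C S' C') : Eqv I U S' C' S C := ⟨h.s', h.s, h.c', h.c, h.v, h.u⟩

theorem Eqv.mono (h : Eqv I U S C S' C') (hV : V ⊆ U) : Eqv I V S C S' C' :=
  ⟨h.s.mono hV, h.s'.mono hV, h.c.mono hV, h.c'.mono hV, h.u.mono hV, h.v.mono hV⟩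

theorem Eqv.trans (hU : IsOpen U) (h : Eqv I U S C S' C') (k : Eqv I U S' C' S'' C'') :
    Eqv I U S C S'' C'' :=
  ⟨h.s, k.s', h.c, k.c', (k.u.mul hU h.c.sm h.c'.sm k.c'.sm h.u).congr hU (eqO_symm (tr_mul h.s')),
    (h.v.mul hU k.c'.sm h.c'.sm h.c.sm k.v).congr hU (eqO_symm (tr_mul h.s'))⟩

theorem Eqv.left (hU : IsOpen U) (h : Eqv I U S C S' C') : Tn I U S C := h.trans hU h.symm

theorem Eqv.right (hU : IsOpen U) (h : Eqv I U S C S' C') : Tn I U S' C' := h.symm.trans hU h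

theorem Eqv.lc (h : Eqv I U S C S' C') (hU : U ∈ 𝓝 x) : Lc x fun V => Eqv I V S C S' C' :=
  .of hU fun _ hV _ => h.mono hV

theorem eqv_of_lc (h : ∀ x ∈ U, Lc x fun V => Eqv I V S C S' C') : Eqv I U S C S' C' := by
  choose! V _ h2 h3 using fun x hx => (h x hx).ex
  have k : ∀ {S : Sy E M κ}, (∀ x ∈ U, S.On I (V x)) → S.On I U := fun k =>
    ⟨fun a x hx => (k x hx).sm a x (h2 x hx), fun x hx => (k x hx).ex x (h2 x hx),
      fun a x hx => (k x hx).te a x (h2 x hx)⟩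
  have k' : ∀ {S : Sy E M κ'}, (∀ x ∈ U, S.On I (V x)) → S.On I U := fun k =>
    ⟨fun a x hx => (k x hx).sm a x (h2 x hx), fun x hx => (k x hx).ex x (h2 x hx),
      fun a x hx => (k x hx).te a x (h2 x hx)⟩
  exact ⟨k fun x hx => (h3 x hx).s, k' fun x hx => (h3 x hx).s',
    ⟨fun i j x hx => (h3 x hx).c.sm i j x (h2 x hx), fun i j x hx => (h3 x hx).c.od i j x (h2 x hx)⟩,
    ⟨fun i j x hx => (h3 x hx).c'.sm i j x (h2 x hx), fun i j x hx => (h3 x hx).c'.od i j x (h2 x hx)⟩,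
    ⟨fun i j x hx => (h3 x hx).u.sm i j x (h2 x hx), fun i j x hx => (h3 x hx).u.ev i j x (h2 x hx),
      fun i j x hx => (h3 x hx).u.eq i j x (h2 x hx)⟩,
    ⟨fun i j x hx => (h3 x hx).v.sm i j x (h2 x hx), fun i j x hx => (h3 x hx).v.ev i j x (h2 x hx),
      fun i j x hx => (h3 x hx).v.eq i j x (h2 x hx)⟩⟩

/-- the characteristic form does not depend on the description -/
theorem Eqv.c2 (hU : IsOpen U) (h : Eqv I U S C S' C') (hx : x ∈ U) :
    c2 I C' (tr S' S') x = c2 I C (tr S S) x := by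
  rw [← h.u.tr2 hU h.c h.c'.sm h.v (tr_ms h.s h.s)
    (eqO_trans (eqO_mul eqO_rfl (tr_mul h.s')) (tr_mul h.s)) hx]
  exact c2_congr (fun _ _ => .rfl) fun i j =>
    eqO_symm (eqO_trans (eqO_mul (tr_mul h.s) eqO_rfl) (tr_mul h.s)) i j x hx

theorem Eqv.congr (hU : IsOpen U) (h : Eqv I U S C S' C') (e : R.Eq S U) (ec : EqO U D C) :
    Eqv I U R D S' C' :=
  ⟨h.s.congr hU e, h.s', co_congr hU h.c ec, h.c',
    itw_congr (h.u.congr hU (tr_congr (fun _ _ _ => ⟨rfl, rfl⟩) e)) ec eqO_rfl,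
    itw_congr (h.v.congr hU (tr_congr e fun _ _ _ => ⟨rfl, rfl⟩)) eqO_rfl ec⟩

variable (I) in
/-- the connection `(S, C)` in the system `S'` -/
def tc (S : Sy E M κ) (C : Matrix κ κ (M → Ext E)) (S' : Sy E M κ') : Matrix κ' κ' (M → Ext E) :=
  tpt I C (tr S' S) (tr S S')

theorem Tn.tc (hU : IsOpen U) (h : Tn I U S C) (h' : S'.On I U) : Eqv I U S C S' (tc I S C S') :=
  have hp : Pa I U C (tr S S' * tr S' S) := h.u.congr hU (tr_mul h')
  ⟨h.s, h', h.c, tpt_co hU h.c (tr_ms h' h.s) (tr_ms h.s h') tr_ev tr_ev,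
    tpt_u hU h.c.sm (tr_ms h' h.s) (tr_ms h.s h') tr_ev tr_ev hp
      (eqO_trans (eqO_mul eqO_rfl (tr_mul h')) (tr_mul h.s)),
    tpt_v hU h.c.sm (tr_ms h' h.s) (tr_ms h.s h') tr_ev hp
      (eqO_trans (eqO_mul (tr_mul h') eqO_rfl) (tr_mul h.s))⟩

theorem Sy.On.gr (hU : IsOpen U) (h : S.On I U) : Tn I U S (gr I (tr S S)) :=
  have h1 := gr_co hU (tr_ms h h) tr_ev
  have h2 := gr_pa hU (tr_ms h h) tr_ev (tr_mul h)
  ⟨h, h, h1, h1, h2, h2⟩

theorem tn_one (hU : IsOpen U) (h : S.On I U) (hC : Co I U C) (e : EqO U (tr S S) 1) : Tn I U S C :=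
  ⟨h, h, hC, hC, pa_one.congr hU e, pa_one.congr hU e⟩

theorem eqv_mix {ι : Type} [Fintype ι] {ψ : ι → M → ℝ} (hU : IsOpen U) (h1 : S.On I U) (h2 : S'.On I U)
    {C : ι → Matrix κ κ (M → Ext E)} {C' : ι → Matrix κ' κ' (M → Ext E)} (hs : ∀ x ∈ U, ∑ j, ψ j x = 1)
    (h : ∀ j, (∀ x ∈ U, ψ j x = 0) ∨ ((∀ x ∈ U, FSm I (ψ j) x) ∧ Eqv I U S (C j) S' (C' j))) :
    Eqv I U S (∑ j, ψ j • C j) S' (∑ j, ψ j • C' j) :=
  ⟨h1, h2, co_mix hU fun j => (h j).imp_right fun k => ⟨k.1, k.2.c⟩,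
    co_mix hU fun j => (h j).imp_right fun k => ⟨k.1, k.2.c'⟩,
    itw_mix (tr_ms h2 h1) tr_ev hs fun j => (h j).imp_right fun k => k.2.u,
    itw_mix (tr_ms h1 h2) tr_ev hs fun j => (h j).imp_right fun k => k.2.v⟩

/-! ### pull-back -/

/-- the pull-back under a local diffeomorphism -/
def Sy.pb (S : Sy E M κ) (J : ModelWithCorners ℝ E' H') (I : ModelWithCorners ℝ E H) (f : N → M) :
    Sy E' N κ :=
  ⟨fun a => pm J I f (S.th a), fun a y => (mf J I f y).inverse (S.e a (f y))⟩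

variable {f g : N → M} {W : Set N} {y : N}

theorem e1_pm (f : N → M) (a : M → Ext E) (y : N) (v : E') :
    e1 (pm J I f a y) v = e1 (a (f y)) (mf J I f y v) := by
  rw [e1, e1, pm_apply, evA_pb]
  congr 1
  funext i
  fin_cases i
  rfl

theorem inv_mf (hf : IsLocalDiffeomorphAt J I ∞ f y) : (mf J I f y).IsInvertible :=
  ⟨hf.mfderivToContinuousLinearEquiv (by simp), rfl⟩

theorem e1_pb (hf : IsLocalDiffeomorphAt J I ∞ f y) (α : M → Ext E) (a : κ) :
    e1 (pm J I f α y) ((S.pb J I f).e a y) = e1 (α (f y)) (S.e a (f y)) := by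
  rw [e1_pm]
  exact congrArg _ ((inv_mf hf).self_apply_inverse _)

theorem Sy.On.pb (h : S.On I U) (hf : ∀ y ∈ W, IsLocalDiffeomorphAt J I ∞ f y) (hm : MapsTo f W U) :
    (S.pb J I f).On J W := by
  refine ⟨fun a y hy => (h.sm a _ (hm hy)).pm (hf y hy).contMDiffAt, fun y hy v => ?_,
    fun a y hy α hα => ?_⟩
  · simp only [Sy.pb, e1_pm, ← map_smul, ← map_sum, h.ex _ (hm hy)]
    exact (inv_mf (hf y hy)).inverse_apply_self v
  · have k := hf y hy
    have e := k.localInverse_eventuallyEq_left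
    have s : SmAt I (pm I J k.localInverse α) (f y) :=
      SmAt.pm k.localInverse_contMDiffAt (by rwa [show k.localInverse (f y) = y from e.self_of_nhds])
    refine ((h.te a _ (hm hy) _ s).comp y k.contMDiffAt).congr_of_eventuallyEq ?_
    filter_upwards [Orx52.eventually_ld k, e.eventually_nhds] with z h1 h2
    rw [Function.comp_apply, ← e1_pb h1, Orx52.pm_pm_inv h1 h2]

theorem tr_pb (hf : ∀ y ∈ W, IsLocalDiffeomorphAt J I ∞ f y) :
    EqO W (tr (S'.pb J I f) (S.pb J I f)) ((tr S' S).map (pa I J f)) := fun b a y hy => by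
  refine Eq.trans ?_ (congrFun (pm_fn f fun x => e1 (S'.th b x) (S.e a x)) y).symm
  exact congrArg (algebraMap ℝ _) (e1_pb (hf y hy) _ _)

theorem Eqv.pb (hW : IsOpen W) (h : Eqv I U S C S' C') (hf : ∀ y ∈ W, IsLocalDiffeomorphAt J I ∞ f y)
    (hm : MapsTo f W U) :
    Eqv J W (S.pb J I f) (C.map (pa I J f)) (S'.pb J I f) (C'.map (pa I J f)) :=
  have mp : Mp J I W U f := ⟨fun y hy => (hf y hy).contMDiffAt, hm⟩
  ⟨h.s.pb hf hm, h.s'.pb hf hm, h.c.pm mp, h.c'.pm mp, (h.u.pm mp).congr hW (tr_pb hf),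
    (h.v.pm mp).congr hW (tr_pb hf)⟩

theorem Lc.eqv_pb (hf : IsLocalDiffeomorphAt J I ∞ f y) (h : Lc (f y) fun U => Eqv I U S C S' C') :
    Lc y fun W => Eqv J W (S.pb J I f) (C.map (pa I J f)) (S'.pb J I f) (C'.map (pa I J f)) :=
  ((h.pb hf.contMDiffAt.continuousAt).and (.of_ev (Orx52.eventually_ld hf))).mono
    fun _ hW ⟨⟨_, _, h1, h2⟩, h3⟩ => h2.pb hW h3 h1

theorem c2_pb (hf : IsLocalDiffeomorphAt J I ∞ f y) (h : ∀ i j, SmAt I (C i j) (f y)) :
    c2 J (C.map (pa I J f)) (tr (S.pb J I f) (S.pb J I f)) y = pm J I f (c2 I C (tr S S)) y := by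
  rw [← pm_c2 _ hf.contMDiffAt h]
  exact c2_congr (fun _ _ => .rfl) fun i j => tr_pb (W := {y}) (fun _ e => e ▸ hf) i j y rfl

theorem pb_comp {k : P → N} {O : Set P} (hf : ∀ z ∈ O, IsLocalDiffeomorphAt J I ∞ f (k z))
    (hk : ∀ z ∈ O, IsLocalDiffeomorphAt K J ∞ k z) :
    ((S.pb J I f).pb K J k).Eq (S.pb K I (f ∘ k)) O := fun a z hz => by
  have h1 := (hf z hz).mdifferentiableAt ne0
  have h2 := (hk z hz).mdifferentiableAt ne0
  refine ⟨pm_comp h1 h2, ?_⟩
  simp only [Sy.pb, mf_comp h1 h2]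
  exact ((inv_mf (hk z hz)).inverse_comp_apply_of_right).symm

theorem map_comp {X : Matrix m n (M → Ext E)} {k : P → N} {O : Set P}
    (hf : ∀ z ∈ O, IsLocalDiffeomorphAt J I ∞ f (k z)) (hk : ∀ z ∈ O, IsLocalDiffeomorphAt K J ∞ k z) :
    EqO O ((X.map (pa I J f)).map (pa J K k)) (X.map (pa I K (f ∘ k))) := fun _ _ z hz =>
  pm_comp ((hf z hz).mdifferentiableAt ne0) ((hk z hz).mdifferentiableAt ne0)

theorem pb_congr (hW : IsOpen W) (e : EqOn f g W) : (S.pb J I f).Eq (S.pb J I g) W := fun a y hy => by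
  have k : f =ᶠ[𝓝 y] g := eventually_of_mem (hW.mem_nhds hy) e
  exact ⟨pm_congr k rfl, by simp only [Sy.pb, mf_congr k, e hy]⟩

theorem map_congr {X : Matrix m n (M → Ext E)} (hW : IsOpen W) (e : EqOn f g W) :
    EqO W (X.map (pa I J f)) (X.map (pa I J g)) := fun _ _ _ hy =>
  pm_congr (eventually_of_mem (hW.mem_nhds hy) e) rfl

theorem pb_id (S : Sy E M κ) : S.pb I I id = S := by
  obtain ⟨th, e⟩ := S
  simp only [Sy.pb, pm_id, mf_id, ContinuousLinearMap.inverse_id]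
  rfl

theorem map_id' (X : Matrix m n (M → Ext E)) : X.map (pa I I id) = X :=
  Matrix.ext fun i j => pm_id (I := I) (X i j)

/-! ### change of the system, examples -/

/-- `th' = u th`, `e' = e v` -/
def Sy.chg (S : Sy E M κ) (u : M → Matrix κ' κ ℝ) (v : M → Matrix κ κ' ℝ) : Sy E M κ' :=
  ⟨fun b => ∑ a, (fun x => u x b a) • S.th a, fun b x => ∑ a, v x a b • S.e a x⟩

variable {u : M → Matrix κ' κ ℝ} {v : M → Matrix κ κ' ℝ}

theorem e1_chg (b : κ') (x : M) (w : E) :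
    e1 ((S.chg u v).th b x) w = ∑ a, u x b a * e1 (S.th a x) w := by
  simp only [Sy.chg, Finset.sum_apply, Pi.smul_apply', e1_sum, e1_smul]

theorem Sy.On.chg (h : S.On I U) (hu : ∀ b a, ∀ x ∈ U, FSm I (fun x => u x b a) x)
    (hv : ∀ a b, ∀ x ∈ U, FSm I (fun x => v x a b) x) (e : ∀ x ∈ U, v x * u x = 1) :
    (S.chg u v).On I U := by
  refine ⟨fun b x hx => cAt_sum fun a _ => CAt.fsmul le_rfl (hu b a x hx) (h.sm a x hx),
    fun x hx w => ?_, fun b x hx α hα => ?_⟩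
  · simp only [e1_chg]
    simp only [Sy.chg, Finset.smul_sum, smul_smul]
    rw [Finset.sum_comm, ← h.ex x hx w]
    refine Finset.sum_congr rfl fun a _ => ?_
    rw [← Finset.sum_smul, h.ex x hx w]
    congr 1
    have := congrFun (congrArg (fun A => A *ᵥ fun c => e1 (S.th c x) w) (e x hx)) a
    simp only [← Matrix.mulVec_mulVec, Matrix.one_mulVec] at this
    rw [← this]
    exact Finset.sum_congr rfl fun _ _ => mul_comm _ _
  · simp only [Sy.chg, e1_vsum]
    exact FSm.sum' fun a _ => (hv a b x hx).mul' (h.te a x hx α hα)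

theorem tr_chg : tr (S.chg u v) S'' = fz E u * tr S S'' := by
  rw [tr, tr, ← fz_mul']
  congr 1
  funext x
  ext b c
  simp only [Matrix.of_apply, e1_chg, Matrix.mul_apply]

theorem tr_chg' : tr S'' (S.chg u v) = tr S'' S * fz E v := by
  rw [tr, tr, ← fz_mul']
  congr 1
  funext x
  ext c b
  simp only [Matrix.of_apply, Sy.chg, e1_vsum, Matrix.mul_apply, mul_comm]

/-- change of a frame -/
theorem Tn.chg (hU : IsOpen U) (h : Tn I U S C) (e : EqO U (tr S S) 1) (hC : Co I U C')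
    (hu : Itw I U C C' (fz E u)) (su : ∀ b a, ∀ x ∈ U, FSm I (fun x => u x b a) x)
    (sv : ∀ a b, ∀ x ∈ U, FSm I (fun x => v x a b) x) (e1 : ∀ x ∈ U, u x * v x = 1)
    (e2 : ∀ x ∈ U, v x * u x = 1) : Eqv I U S C (S.chg u v) C' :=
  ⟨h.s, h.s.chg su sv e2, h.c, hC,
    hu.congr hU (by simpa only [tr_chg, Matrix.mul_one] using eqO_mul (eqO_rfl (X := fz E u)) e),
    (itw_inv hU h.c.sm hu (fz_ms' sv) (fz_ev' _)
      (by rw [← fz_mul', ← fz_one']; exact fz_congr' e1)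
      (by rw [← fz_mul', ← fz_one']; exact fz_congr' e2)).congr hU
      (by simpa only [tr_chg', Matrix.one_mul] using eqO_mul e (eqO_rfl (X := fz E v)))⟩

/-- the constant frame of a basis -/
def Sy.std (b : Basis κ ℝ E) : Sy E E κ := ⟨fun a _ => io (b.coord a), fun a _ => b a⟩

theorem std_on (b : Basis κ ℝ E) : (Sy.std b).On 𝓘(ℝ, E) univ := by
  refine ⟨fun a x _ => cAt_model.2 contDiffAt_const, fun x _ v => ?_, fun a x _ α hα => ?_⟩
  · simp only [Sy.std, e1_io]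
    exact b.sum_repr v
  · let L : Ext E →L[ℝ] ℝ := LinearMap.toContinuousLinearMap
      { toFun := fun c => e1 c (b a), map_add' := fun _ _ => e1_add _ _ _,
        map_smul' := fun _ _ => e1_smul _ _ _ }
    exact (L.contDiff.contDiffAt.comp x (cAt_model.1 hα)).contMDiffAt

theorem tr_std (b : Basis κ ℝ E) : tr (Sy.std b) (Sy.std b) = 1 := by
  rw [tr, ← fz_one']
  congr 1
  funext x
  ext a c
  simp [Sy.std, e1_io, Matrix.one_apply, Finsupp.single_apply, eq_comm]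

section fr

variable [MeasurableSpace E] [BorelSpace E] [MeasurableSpace M] [BorelSpace M]
  [SecondCountableTopology M] (F : An.Fr I M κ)

/-- the system of a Parseval frame -/
def Sy.fr : Sy E M κ := ⟨Num57.th F, fun a x => ee F x a⟩

theorem fr_on : (Sy.fr F).On I univ :=
  ⟨fun a x _ => smAt_th F a x, fun x _ v => by
    simpa only [Sy.fr, th, e1_io] using (cf F x).ex v, fun a _ _ _ hα => sa_k1 F hα a⟩

theorem tr_fr : tr (Sy.fr F) (Sy.fr F) = fz E fun x => Matrix.of fun a b => F.P a b x := by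
  simp only [tr, Sy.fr, th, e1_io, (cf F _).te]

end fr

end Crest.Agent.X212.Cg28
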